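import Mathlib

/-!
Powers of two and sums of two rational squares (module Pow of the plan of helper124).
`pow_iff`: `(2^g-1)/3` is a sum of two rational squares iff `g` is a power of two, `g > 1`.
`prod_iff`: a quotient which is a sum of two rational squares iff `u = v`.
-/

namespace Vale.Agent.P027.R2.H955

/-- sum of two rational squares -/
def Sum2 (x : ℚ) : Prop := ∃ a b : ℚ, x = a ^ 2 + b ^ 2

lemma Sum2.mul {x y : ℚ} (hx : Sum2 x) (hy : Sum2 y) : Sum2 (x * y) := by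
  obtain ⟨a, b, rfl⟩ := hx
  obtain ⟨c, d, rfl⟩ := hy
  exact ⟨a * c - b * d, a * d + b * c, by ring⟩

lemma sum2_one : Sum2 1 := ⟨1, 0, by norm_num⟩

lemma sum2_prod {ι : Type*} (s : Finset ι) (f : ι → ℚ) (h : ∀ i ∈ s, Sum2 (f i)) :
    Sum2 (∏ i ∈ s, f i) := by
  classical
  induction s using Finset.induction_on with
  | empty => simpa using sum2_one
  | insert a s ha ih =>
    rw [Finset.prod_insert ha]
    exact (h a (by simp)).mul (ih fun i hi => h i (by simp [hi]))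

lemma even_padicValNat_sq_add_sq {r : ℕ} (hr : r.Prime) (h3 : r % 4 = 3) (a b : ℕ) :
    Even (padicValNat r (a ^ 2 + b ^ 2)) := by
  by_cases h : r ∈ (a ^ 2 + b ^ 2).primeFactors
  · exact Nat.eq_sq_add_sq_iff.1 ⟨a, b, rfl⟩ r h h3
  · rcases Nat.eq_zero_or_pos (a ^ 2 + b ^ 2) with h0 | h0
    · simp [h0]
    · have : ¬ r ∣ a ^ 2 + b ^ 2 := by
        intro hd
        exact h (Nat.mem_primeFactors.2 ⟨hr, hd, h0.ne'⟩)
      simp [padicValNat.eq_zero_of_not_dvd this]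

/-- odd valuation at a prime `3 mod 4` excludes sums of two squares -/
lemma not_sum2_of_odd {r : ℕ} (hr : r.Prime) (h3 : r % 4 = 3) {m n : ℕ} (hm : 0 < m) (hn : 0 < n)
    (hodd : Odd (padicValNat r m + padicValNat r n)) : ¬ Sum2 ((m : ℚ) / n) := by
  have : Fact r.Prime := ⟨hr⟩
  rintro ⟨a, b, h⟩
  have hm' : (m : ℚ) ≠ 0 := by exact_mod_cast hm.ne'
  have hn' : (n : ℚ) ≠ 0 := by exact_mod_cast hn.ne'
  set A : ℕ := a.num.natAbs * b.den
  set B : ℕ := b.num.natAbs * a.den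
  set D : ℕ := a.den * b.den
  have hD : 0 < D := Nat.mul_pos a.pos b.pos
  have hDq : (D : ℚ) ≠ 0 := by exact_mod_cast hD.ne'
  have had : (a.den : ℚ) ≠ 0 := by exact_mod_cast a.den_ne_zero
  have hbd : (b.den : ℚ) ≠ 0 := by exact_mod_cast b.den_ne_zero
  have hA : (A : ℚ) ^ 2 = (a * D) ^ 2 := by
    have h1 : ((a.num.natAbs : ℕ) : ℚ) ^ 2 = (a.num : ℚ) ^ 2 := by
      have : ((a.num.natAbs : ℕ) : ℚ) = |(a.num : ℚ)| := by
        rw [Nat.cast_natAbs]; simp
      rw [this, sq_abs]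
    have h2 : (a : ℚ) * a.den = a.num := Rat.mul_den_eq_num a
    simp only [A, D, Nat.cast_mul, mul_pow]
    rw [h1, ← h2]; ring
  have hB : (B : ℚ) ^ 2 = (b * D) ^ 2 := by
    have h1 : ((b.num.natAbs : ℕ) : ℚ) ^ 2 = (b.num : ℚ) ^ 2 := by
      have : ((b.num.natAbs : ℕ) : ℚ) = |(b.num : ℚ)| := by
        rw [Nat.cast_natAbs]; simp
      rw [this, sq_abs]
    have h2 : (b : ℚ) * b.den = b.num := Rat.mul_den_eq_num b
    simp only [B, D, Nat.cast_mul, mul_pow]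
    rw [h1, ← h2]; ring
  have key : (m : ℚ) * D ^ 2 = n * (A ^ 2 + B ^ 2) := by
    rw [hA, hB]
    have : (m : ℚ) = n * (a ^ 2 + b ^ 2) := by
      rw [← h]; field_simp
    rw [this]; ring
  have keyN : m * D ^ 2 = n * (A ^ 2 + B ^ 2) := by exact_mod_cast key
  have hAB : A ^ 2 + B ^ 2 ≠ 0 := by
    intro h0
    rw [h0, mul_zero] at keyN
    have := Nat.mul_pos hm (pow_pos hD 2)
    omega
  have hval : padicValNat r (m * D ^ 2) = padicValNat r (n * (A ^ 2 + B ^ 2)) := by rw [keyN]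
  rw [padicValNat.mul hm.ne' (pow_ne_zero 2 hD.ne'), padicValNat.mul hn.ne' hAB,
    padicValNat.pow] at hval
  have hev := even_padicValNat_sq_add_sq hr h3 A B
  obtain ⟨c, hc⟩ := hev
  obtain ⟨d, hd⟩ := hodd
  omega

/-- a number `3 mod 4` has a prime `3 mod 4` with odd valuation -/
lemma exists_prime_three {n : ℕ} (hn : n % 4 = 3) :
    ∃ r : ℕ, r.Prime ∧ r % 4 = 3 ∧ r ∣ n ∧ Odd (padicValNat r n) := by
  by_contra hcon
  push Not at hcon
  have : ∃ x y, n = x ^ 2 + y ^ 2 := by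
    rw [Nat.eq_sq_add_sq_iff]
    intro q hq h3
    by_contra hev
    exact hcon q (Nat.prime_of_mem_primeFactors hq) h3 (Nat.dvd_of_mem_primeFactors hq)
      (Nat.not_even_iff_odd.1 hev)
  obtain ⟨x, y, h⟩ := this
  have hx : x ^ 2 % 4 = 0 ∨ x ^ 2 % 4 = 1 := by
    have : x % 4 = 0 ∨ x % 4 = 1 ∨ x % 4 = 2 ∨ x % 4 = 3 := by omega
    rcases this with h | h | h | h <;> simp [Nat.pow_mod, h]
  have hy : y ^ 2 % 4 = 0 ∨ y ^ 2 % 4 = 1 := by
    have : y % 4 = 0 ∨ y % 4 = 1 ∨ y % 4 = 2 ∨ y % 4 = 3 := by omega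
    rcases this with h | h | h | h <;> simp [Nat.pow_mod, h]
  omega

/-- lifting the exponent for `2^g-1` -/
lemma val_pow_mul {r : ℕ} (hr : r.Prime) (hr2 : r ≠ 2) {d k : ℕ} (hd : 0 < d) (hk : 0 < k)
    (hdvd : r ∣ 2 ^ d - 1) :
    padicValNat r (2 ^ (d * k) - 1) = padicValNat r (2 ^ d - 1) + padicValNat r k := by
  have : Fact r.Prime := ⟨hr⟩
  have hodd : Odd r := hr.odd_of_ne_two hr2
  have h1 : 1 < 2 ^ d := Nat.one_lt_two_pow hd.ne'
  have hnd : ¬ r ∣ 2 ^ d := by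
    intro h
    have := hr.dvd_of_dvd_pow h
    exact hr2 ((Nat.prime_dvd_prime_iff_eq hr Nat.prime_two).1 this)
  have := padicValNat.pow_sub_pow (p := r) hodd h1 hdvd hnd hk.ne'
  rw [pow_mul]
  simpa using this

lemma dvd_two_pow_iff {r e : ℕ} :
    r ∣ 2 ^ e - 1 ↔ orderOf (2 : ZMod r) ∣ e := by
  rw [orderOf_dvd_iff_pow_eq_one]
  have h1 : 1 ≤ 2 ^ e := Nat.one_le_two_pow
  rw [← CharP.cast_eq_zero_iff (ZMod r) r (2 ^ e - 1), Nat.cast_sub h1]
  push_cast
  rw [sub_eq_zero]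

lemma order_facts {r d : ℕ} (hr : r.Prime) (hr2 : r ≠ 2) (ho : orderOf (2 : ZMod r) = d) :
    0 < d ∧ d < r := by
  have : Fact r.Prime := ⟨hr⟩
  have h2 : (2 : ZMod r) ≠ 0 := by
    intro h
    have : ((2 : ℕ) : ZMod r) = 0 := by exact_mod_cast h
    rw [ZMod.natCast_eq_zero_iff] at this
    exact hr2 ((Nat.prime_dvd_prime_iff_eq hr Nat.prime_two).1 this)
  have hdvd : d ∣ r - 1 := by
    rw [← ho, orderOf_dvd_iff_pow_eq_one]
    exact ZMod.pow_card_sub_one_eq_one h2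
  have h3 : 0 < r - 1 := by have := hr.two_le; omega
  have h4 := Nat.le_of_dvd h3 hdvd
  have h5 := Nat.pos_of_dvd_of_pos hdvd h3
  omega

/-- valuation of `2^e-1` at `r` of order `d`, when all prime factors of `e` are below `r` -/
lemma val_of_order {r d e : ℕ} (hr : r.Prime) (hr2 : r ≠ 2) (ho : orderOf (2 : ZMod r) = d)
    (he : 0 < e) (hde : d ∣ e) (hre : ¬ r ∣ e) :
    padicValNat r (2 ^ e - 1) = padicValNat r (2 ^ d - 1) := by
  have : Fact r.Prime := ⟨hr⟩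
  obtain ⟨k, rfl⟩ := hde
  have hd := (order_facts hr hr2 ho).1
  have hk : 0 < k := Nat.pos_of_mul_pos_left he |> fun h => by
    rcases Nat.eq_zero_or_pos k with h0 | h0
    · subst h0; simp at he
    · exact h0
  rw [val_pow_mul hr hr2 hd hk (dvd_two_pow_iff.2 (by rw [ho]))]
  have : ¬ r ∣ k := fun h => hre (dvd_mul_of_dvd_right h d)
  rw [padicValNat.eq_zero_of_not_dvd this, add_zero]

/-- `2^l-1`, `l` an odd prime: a prime `3 mod 4` of order exactly `l` with odd valuation -/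
lemma forced_prime {l : ℕ} (hl : l.Prime) (hl2 : l ≠ 2) :
    ∃ r : ℕ, r.Prime ∧ r % 4 = 3 ∧ orderOf (2 : ZMod r) = l ∧ Odd (padicValNat r (2 ^ l - 1)) := by
  have hl3 : 2 ≤ l := hl.two_le
  have h4 : (2 ^ l - 1) % 4 = 3 := by
    obtain ⟨k, rfl⟩ := Nat.exists_eq_add_of_le hl3
    rw [pow_add]
    have : 1 ≤ 2 ^ k := Nat.one_le_two_pow
    omega
  obtain ⟨r, hr, h3, hdvd, hodd⟩ := exists_prime_three h4
  refine ⟨r, hr, h3, ?_, hodd⟩
  rw [dvd_two_pow_iff] at hdvd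
  rcases (Nat.dvd_prime hl).1 hdvd with h | h
  · exfalso
    rw [orderOf_eq_one_iff] at h
    have : Fact r.Prime := ⟨hr⟩
    have h5 : ((1 : ℕ) : ZMod r) = 0 := by
      have : (2 : ZMod r) - 1 = 0 := by rw [h]; ring
      have h6 : (2 : ZMod r) - 1 = 1 := by norm_num
      rw [h6] at this
      simp at this
    rw [ZMod.natCast_eq_zero_iff] at h5
    exact hr.one_lt.ne' (Nat.dvd_one.1 h5)
  · exact h


lemma geo_prod (q : ℚ) (w : ℕ) :
    q ^ (2 ^ w) - 1 = (q - 1) * ∏ i ∈ Finset.range w, (q ^ (2 ^ i) + 1) := by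
  induction w with
  | zero => simp
  | succ w ih =>
    rw [Finset.prod_range_succ, ← mul_assoc, ← ih, pow_succ 2 w, pow_mul]
    ring

lemma exists_largest {g : ℕ} (hg : 2 ≤ g) :
    ∃ l : ℕ, l.Prime ∧ l ∣ g ∧ ∀ p : ℕ, p.Prime → p ∣ g → p ≤ l := by
  have hne : g.primeFactors.Nonempty := Nat.nonempty_primeFactors.2 hg
  refine ⟨g.primeFactors.max' hne, ?_, ?_, ?_⟩
  · exact Nat.prime_of_mem_primeFactors (Finset.max'_mem _ hne)
  · exact Nat.dvd_of_mem_primeFactors (Finset.max'_mem _ hne)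
  · intro p hp hpg
    exact Finset.le_max' _ _ (Nat.mem_primeFactors.2 ⟨hp, hpg, by omega⟩)

lemma cast_two_pow_sub (e : ℕ) : (((2 ^ e - 1 : ℕ)) : ℚ) = (2 : ℚ) ^ e - 1 := by
  rw [Nat.cast_sub Nat.one_le_two_pow]
  push_cast
  ring

lemma ord_three : orderOf (2 : ZMod 3) ∣ 2 := by
  rw [orderOf_dvd_iff_pow_eq_one]; decide

/-- `(2^g-1)/3` is a sum of two rational squares iff `g = 2^w`, `w ≥ 1` -/
theorem pow_iff (g : ℕ) (hg : 1 ≤ g) : Sum2 (((2 : ℚ) ^ g - 1) / 3) ↔ ∃ w, 1 ≤ w ∧ g = 2 ^ w := by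
  constructor
  · intro h
    rcases Nat.lt_or_ge g 2 with h2 | h2
    · exfalso
      have h1 : g = 1 := by omega
      subst h1
      have : Fact (Nat.Prime 3) := ⟨Nat.prime_three⟩
      refine not_sum2_of_odd Nat.prime_three (by norm_num) (m := 1) (n := 3) one_pos (by norm_num)
        ?_ (by convert h using 1; norm_num)
      simp
    · obtain ⟨l, hl, hlg, hmax⟩ := exists_largest h2
      by_cases hl2 : l = 2
      · subst hl2
        have h3 := Nat.eq_prime_pow_of_unique_prime_dvd (n := g) (p := 2) (by omega)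
          (fun {d} hd hdg => le_antisymm (hmax d hd hdg) hd.two_le)
        refine ⟨_, ?_, h3⟩
        rcases Nat.eq_zero_or_pos g.primeFactorsList.length with h4 | h4
        · rw [h4] at h3; omega
        · exact h4
      · exfalso
        obtain ⟨r, hr, hr3, ho, hodd⟩ := forced_prime hl hl2
        have hr2 : r ≠ 2 := by omega
        have : Fact r.Prime := ⟨hr⟩
        have hlr := (order_facts hr hr2 ho).2
        have hrg : ¬ r ∣ g := fun h => by have := hmax r hr h; omega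
        have hv := val_of_order hr hr2 ho (by omega) hlg hrg
        have hr3' : r ≠ 3 := by
          rintro rfl
          have h5 := ord_three
          rw [ho] at h5
          exact hl2 ((Nat.prime_dvd_prime_iff_eq hl Nat.prime_two).1 h5)
        have hv3 : padicValNat r 3 = 0 := by
          apply padicValNat.eq_zero_of_not_dvd
          intro h
          exact hr3' ((Nat.prime_dvd_prime_iff_eq hr Nat.prime_three).1 h)
        have hpos : 0 < 2 ^ g - 1 := by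
          have : 2 ^ 1 ≤ 2 ^ g := Nat.pow_le_pow_right (by norm_num) hg
          omega
        refine not_sum2_of_odd hr hr3 hpos (n := 3) (by norm_num) ?_ ?_
        · rw [hv, hv3, add_zero]; exact hodd
        · rw [cast_two_pow_sub]; exact_mod_cast h
  · rintro ⟨w, hw, rfl⟩
    obtain ⟨w, rfl⟩ : ∃ k, w = k + 1 := ⟨w - 1, by omega⟩
    have h1 : (2 : ℚ) ^ (2 ^ (w + 1)) = (4 : ℚ) ^ (2 ^ w) := by
      rw [pow_succ 2 w, mul_comm, pow_mul]; norm_num
    rw [h1, geo_prod]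
    have h2 : ((4 : ℚ) - 1) * (∏ i ∈ Finset.range w, ((4 : ℚ) ^ (2 ^ i) + 1)) / 3 =
        ∏ i ∈ Finset.range w, ((4 : ℚ) ^ (2 ^ i) + 1) := by ring
    rw [h2]
    apply sum2_prod
    intro i _
    refine ⟨2 ^ (2 ^ i), 1, ?_⟩
    rw [← pow_mul, mul_comm (2 ^ i) 2, pow_mul]
    norm_num

/-! ### cyclotomic part -/

open Polynomial in
/-- the value of the cyclotomic polynomial at two -/
noncomputable def Phi (d : ℕ) : ℤ := (cyclotomic d ℤ).eval 2

open Polynomial in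
lemma phi_dvd (d : ℕ) : Phi d ∣ 2 ^ d - 1 := by
  have h := cyclotomic.dvd_X_pow_sub_one d ℤ
  obtain ⟨q, hq⟩ := h
  refine ⟨q.eval 2, ?_⟩
  have := congrArg (Polynomial.eval (2 : ℤ)) hq
  simpa [Phi] using this

open Polynomial in
lemma phi_prime {s : ℕ} (hs : s.Prime) : Phi s = 2 ^ s - 1 := by
  have : Fact s.Prime := ⟨hs⟩
  have h := cyclotomic_prime_mul_X_sub_one ℤ s
  have := congrArg (Polynomial.eval (2 : ℤ)) h
  simp only [eval_mul, eval_sub, eval_X, eval_one, eval_pow] at this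
  unfold Phi
  linarith

open Polynomial in
lemma phi_step {n p : ℕ} (hp : p.Prime) (hpn : ¬ p ∣ n) (hn : 1 < n) (h3 : Phi n % 4 = 3) :
    Phi (n * p) % 4 = 3 := by
  have h := cyclotomic_expand_eq_cyclotomic_mul hp hpn ℤ
  have h1 := congrArg (Polynomial.eval (2 : ℤ)) h
  simp only [expand_eval, eval_mul] at h1
  have h0 : (cyclotomic n ℤ).eval 0 = 1 := by
    rw [← coeff_zero_eq_eval_zero]
    exact cyclotomic_coeff_zero ℤ hn
  have h2 : (4 : ℤ) ∣ (cyclotomic n ℤ).eval (2 ^ p) - (cyclotomic n ℤ).eval 0 := by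
    refine dvd_trans ?_ (sub_dvd_eval_sub _ _ _)
    rw [sub_zero]
    obtain ⟨k, hk⟩ := Nat.exists_eq_add_of_le hp.two_le
    rw [hk, pow_add]
    exact dvd_mul_right _ _
  rw [h1, h0] at h2
  change (4 : ℤ) ∣ Phi (n * p) * Phi n - 1 at h2
  have h4 : (Phi (n * p) * Phi n) % 4 = 1 := by omega
  rw [Int.mul_emod, h3] at h4
  have h5 : Phi (n * p) % 4 = 0 ∨ Phi (n * p) % 4 = 1 ∨ Phi (n * p) % 4 = 2 ∨
    Phi (n * p) % 4 = 3 := by omega
  rcases h5 with h5 | h5 | h5 | h5 <;> rw [h5] at h4 <;> omega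

open Polynomial in
lemma phi_prod {d : ℕ} (hd : 0 < d) : ∏ e ∈ d.divisors, Phi e = 2 ^ d - 1 := by
  have h := prod_cyclotomic_eq_X_pow_sub_one hd ℤ
  have := congrArg (Polynomial.eval (2 : ℤ)) h
  simpa [Phi, eval_prod] using this

open Polynomial in
/-- a prime dividing `Phi d` (`d` squarefree with largest prime `s`) has order `d`, unless `s`
is intrinsic -/
lemma order_of_dvd_phi {d s r : ℕ} (hsq : Squarefree d) (hs : s.Prime) (hsd : s ∣ d)
    (hmax : ∀ p : ℕ, p.Prime → p ∣ d → p ≤ s) (hord : orderOf (2 : ZMod s) ≠ d / s)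
    (hr : r.Prime) (hr2 : r ≠ 2) (hrd : (r : ℤ) ∣ Phi d) : orderOf (2 : ZMod r) = d := by
  have : Fact r.Prime := ⟨hr⟩
  have hroot : (cyclotomic d (ZMod r)).IsRoot 2 := by
    have h1 : ((Phi d : ℤ) : ZMod r) = 0 := (ZMod.intCast_zmod_eq_zero_iff_dvd _ _).2 hrd
    have h2 : (cyclotomic d (ZMod r)).eval 2 = ((Phi d : ℤ) : ZMod r) := by
      rw [← map_cyclotomic_int d (ZMod r)]
      have : (2 : ZMod r) = (Int.castRingHom (ZMod r)) 2 := by simp
      rw [this, eval_map, eval₂_hom]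
      rfl
    rw [IsRoot.def, h2, h1]
  by_cases hdr : r ∣ d
  · exfalso
    obtain ⟨m, hm⟩ := hdr
    have hrm : ¬ r ∣ m := by
      rintro ⟨k, rfl⟩
      have := hsq r ⟨k, by rw [hm]; ring⟩
      exact hr.one_lt.ne' (Nat.isUnit_iff.1 this)
    have hm0 : NeZero (m : ZMod r) := ⟨by
      intro h; rw [ZMod.natCast_eq_zero_iff] at h; exact hrm h⟩
    have hroot' : (cyclotomic (r ^ 1 * m) (ZMod r)).IsRoot 2 := by rwa [pow_one, ← hm]
    rw [isRoot_cyclotomic_prime_pow_mul_iff_of_charP] at hroot'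
    have ho := hroot'.eq_orderOf.symm
    have hmr := (order_facts hr hr2 ho).2
    have hmp := (order_facts hr hr2 ho).1
    have hrs : r = s := by
      rw [hm] at hsd
      rcases (hs.dvd_mul).1 hsd with h | h
      · exact ((Nat.prime_dvd_prime_iff_eq hs hr).1 h).symm
      · have h1 := Nat.le_of_dvd hmp h
        have h2 := hmax r hr ⟨m, hm⟩
        omega
    subst hrs
    apply hord
    rw [ho, hm, Nat.mul_div_cancel_left _ hr.pos]
  · have hd0 : NeZero (d : ZMod r) := ⟨by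
      intro h; rw [ZMod.natCast_eq_zero_iff] at h; exact hdr h⟩
    rw [isRoot_cyclotomic_iff] at hroot
    exact hroot.eq_orderOf.symm

open Polynomial in
/-- a prime `3 mod 4` of order exactly `d` with odd valuation -/
theorem forced {d s : ℕ} (hsq : Squarefree d) (hd1 : 1 < d) (hs : s.Prime) (hsd : s ∣ d)
    (hmax : ∀ p : ℕ, p.Prime → p ∣ d → p ≤ s) (hord : orderOf (2 : ZMod s) ≠ d / s)
    (h3 : Phi d % 4 = 3) :
    ∃ r : ℕ, r.Prime ∧ r % 4 = 3 ∧ orderOf (2 : ZMod r) = d ∧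
      Odd (padicValNat r (2 ^ d - 1)) := by
  have hpos : 0 < Phi d := cyclotomic_pos' d (by norm_num)
  obtain ⟨N, hN⟩ : ∃ N : ℕ, Phi d = N := ⟨(Phi d).toNat, by omega⟩
  have hN3 : N % 4 = 3 := by omega
  obtain ⟨r, hr, hr3, hrN, hodd⟩ := exists_prime_three hN3
  have hr2 : r ≠ 2 := by omega
  have : Fact r.Prime := ⟨hr⟩
  have ho : orderOf (2 : ZMod r) = d :=
    order_of_dvd_phi hsq hs hsd hmax hord hr hr2 (by rw [hN]; exact_mod_cast hrN)
  refine ⟨r, hr, hr3, ho, ?_⟩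
  have hd0 : 0 < d := by omega
  have hprod := phi_prod hd0
  have hmem : d ∈ d.divisors := Nat.mem_divisors_self d hd0.ne'
  rw [← Finset.mul_prod_erase _ _ hmem] at hprod
  have hMr : ¬ (r : ℤ) ∣ ∏ e ∈ d.divisors.erase d, Phi e := by
    intro h
    have hrp : Prime (r : ℤ) := Nat.prime_iff_prime_int.1 hr
    obtain ⟨e, he, hre⟩ := (Prime.dvd_finsetProd_iff hrp _).1 h
    have he1 := (Finset.mem_erase.1 he).1
    have he2 := Nat.dvd_of_mem_divisors (Finset.mem_erase.1 he).2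
    have h1 : (r : ℤ) ∣ 2 ^ e - 1 := hre.trans (phi_dvd e)
    have h2 : r ∣ 2 ^ e - 1 := by
      have : ((2 ^ e - 1 : ℕ) : ℤ) = 2 ^ e - 1 := by
        rw [Nat.cast_sub Nat.one_le_two_pow]; push_cast; ring
      rw [← this] at h1
      exact_mod_cast h1
    rw [dvd_two_pow_iff, ho] at h2
    exact he1 (Nat.dvd_antisymm he2 h2)
  have hMpos : 0 < ∏ e ∈ d.divisors.erase d, Phi e :=
    Finset.prod_pos fun e _ => cyclotomic_pos' e (by norm_num)
  obtain ⟨M, hM⟩ : ∃ M : ℕ, ∏ e ∈ d.divisors.erase d, Phi e = M :=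
    ⟨(∏ e ∈ d.divisors.erase d, Phi e).toNat, by omega⟩
  rw [hM] at hprod hMr hMpos
  rw [hN] at hprod hpos
  have hprodN : N * M = 2 ^ d - 1 := by
    have : ((2 ^ d - 1 : ℕ) : ℤ) = 2 ^ d - 1 := by
      rw [Nat.cast_sub Nat.one_le_two_pow]; push_cast; ring
    rw [← this] at hprod
    exact_mod_cast hprod
  rw [← hprodN, padicValNat.mul (by omega) (by omega),
    padicValNat.eq_zero_of_not_dvd (n := M) (fun h => hMr (by exact_mod_cast h)), add_zero]
  exact hodd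

/-- the odd part of the exponents decides the two-square class -/
lemma asym {E E' l : ℕ} (hE : 0 < E) (hE2 : 2 ∣ E) (hl : l.Prime) (hl2 : l ≠ 2)
    (hlE : l ∣ E) (hlE' : ¬ l ∣ E') :
    ∃ r : ℕ, r.Prime ∧ r % 4 = 3 ∧ Odd (padicValNat r (2 ^ E - 1)) ∧
      padicValNat r (2 ^ E' - 1) = 0 := by
  have hlE2 := Nat.le_of_dvd hE hlE
  obtain ⟨s, hs, hsE, hmax⟩ := exists_largest (g := E) (by have := hl.two_le; omega)
  have hls : l ≤ s := hmax l hl hlE
  have hl3 : 2 < l := lt_of_le_of_ne hl.two_le (Ne.symm hl2)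
  -- the common endgame
  have fin : ∀ d : ℕ, d ∣ E → ¬ d ∣ E' → s ≤ d → Squarefree d → 1 < d → s ∣ d →
      orderOf (2 : ZMod s) ≠ d / s → Phi d % 4 = 3 →
      ∃ r : ℕ, r.Prime ∧ r % 4 = 3 ∧ Odd (padicValNat r (2 ^ E - 1)) ∧
        padicValNat r (2 ^ E' - 1) = 0 := by
    intro d hdE hdE' hsd' hsq hd1 hsd hord h3
    obtain ⟨r, hr, hr3, ho, hodd⟩ := forced hsq hd1 hs hsd
      (fun p hp hpd => hmax p hp (hpd.trans hdE)) hord h3
    have hr2 : r ≠ 2 := by omega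
    have hdr := (order_facts hr hr2 ho).2
    refine ⟨r, hr, hr3, ?_, ?_⟩
    · rw [val_of_order hr hr2 ho hE hdE (fun h => by have := hmax r hr h; omega)]
      exact hodd
    · apply padicValNat.eq_zero_of_not_dvd
      rw [dvd_two_pow_iff, ho]
      exact hdE'
  have hPhis : Phi s % 4 = 3 := by
    rw [phi_prime hs]
    obtain ⟨k, hk⟩ := Nat.exists_eq_add_of_le hs.two_le
    rw [hk, pow_add]
    omega
  have hs1 : orderOf (2 : ZMod s) ≠ 1 := by
    intro h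
    rw [orderOf_eq_one_iff] at h
    have : Fact s.Prime := ⟨hs⟩
    have h5 : (2 : ZMod s) - 1 = 0 := by rw [h]; ring
    have h6 : (2 : ZMod s) - 1 = 1 := by norm_num
    rw [h6] at h5
    simp at h5
  by_cases hsE' : s ∣ E'
  · have hne : l ≠ s := fun h => hlE' (h ▸ hsE')
    have hcop : Nat.Coprime l s := (Nat.coprime_primes hl hs).2 hne
    have hlsE : l * s ∣ E := hcop.mul_dvd_of_dvd_of_dvd hlE hsE
    have hsnl : ¬ s ∣ l := fun h => hne ((Nat.prime_dvd_prime_iff_eq hs hl).1 h).symm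
    have hPhil : Phi l % 4 = 3 := by
      rw [phi_prime hl]
      obtain ⟨k, hk⟩ := Nat.exists_eq_add_of_le hl.two_le
      rw [hk, pow_add]
      omega
    have hPhils : Phi (l * s) % 4 = 3 := phi_step hs hsnl hl.one_lt hPhil
    have hsqls : Squarefree (l * s) :=
      (Nat.squarefree_mul hcop).2 ⟨hl.prime.squarefree, hs.prime.squarefree⟩
    by_cases hol : orderOf (2 : ZMod s) = l
    · have h2ls : ¬ 2 ∣ l * s := by
        intro h
        rcases (Nat.prime_two.dvd_mul).1 h with h | h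
        · exact hl2 ((Nat.prime_dvd_prime_iff_eq Nat.prime_two hl).1 h).symm
        · have := (Nat.prime_dvd_prime_iff_eq Nat.prime_two hs).1 h
          omega
      have hcop2 : Nat.Coprime (l * s) 2 :=
        ((Nat.Prime.coprime_iff_not_dvd Nat.prime_two).2 h2ls).symm
      refine fin (l * s * 2) (hcop2.mul_dvd_of_dvd_of_dvd hlsE hE2) ?_ ?_ ?_ ?_ ?_ ?_ ?_
      · intro h
        exact hlE' (dvd_trans ⟨s * 2, by ring⟩ h)
      · nlinarith
      · exact (Nat.squarefree_mul hcop2).2 ⟨hsqls, Nat.prime_two.prime.squarefree⟩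
      · nlinarith
      · exact ⟨l * 2, by ring⟩
      · rw [hol, show l * s * 2 = l * 2 * s by ring, Nat.mul_div_cancel _ hs.pos]
        omega
      · exact phi_step Nat.prime_two h2ls (by nlinarith) hPhils
    · refine fin (l * s) hlsE ?_ ?_ hsqls ?_ ?_ ?_ hPhils
      · intro h
        exact hlE' (dvd_trans ⟨s, rfl⟩ h)
      · nlinarith
      · nlinarith
      · exact ⟨l, by ring⟩
      · rw [Nat.mul_div_cancel _ hs.pos]; exact hol
  · refine fin s hsE hsE' le_rfl hs.prime.squarefree hs.one_lt dvd_rfl ?_ hPhis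
    rw [Nat.div_self hs.pos]; exact hs1

lemma bern {A k : ℕ} (hA : 2 ≤ A) (hk : 2 ≤ k) : (A - 1) * k < A ^ k - 1 := by
  obtain ⟨B, rfl⟩ : ∃ B, A = B + 1 := ⟨A - 1, by omega⟩
  have hB : 1 ≤ B := by omega
  have : B * k + 1 < (B + 1) ^ k := by
    induction k, hk using Nat.le_induction with
    | base => nlinarith
    | succ n hn ih =>
      rw [pow_succ]
      have h1 : (B * n + 1) * (B + 1) < (B + 1) ^ n * (B + 1) :=
        Nat.mul_lt_mul_of_pos_right ih (by omega)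
      have h2 : (B * n + 1) * (B + 1) = B * (n + 1) + 1 + B * B * n := by ring
      omega
  rw [Nat.add_sub_cancel]
  omega

/-- for `u < v` an odd prime divides `2^v-1` and not `2^u-1` -/
lemma sep {u v : ℕ} (hu : 1 ≤ u) (huv : u < v) :
    ∃ l : ℕ, l.Prime ∧ l ≠ 2 ∧ l ∣ 2 ^ v - 1 ∧ ¬ l ∣ 2 ^ u - 1 := by
  by_contra hcon
  push Not at hcon
  have hg : 0 < Nat.gcd u v := Nat.gcd_pos_of_pos_left _ hu
  have hgu : Nat.gcd u v ≤ u := Nat.le_of_dvd hu (Nat.gcd_dvd_left u v)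
  obtain ⟨k, hk⟩ := Nat.gcd_dvd_right u v
  set g := Nat.gcd u v with hgdef
  have hk2 : 2 ≤ k := by
    by_contra h
    have : k = 0 ∨ k = 1 := by omega
    rcases this with rfl | rfl
    · simp at hk; omega
    · rw [mul_one] at hk; omega
  have hA : 2 ≤ 2 ^ g := by
    calc 2 = 2 ^ 1 := by norm_num
      _ ≤ 2 ^ g := Nat.pow_le_pow_right (by norm_num) hg
  have hbern := bern hA hk2
  have hv1 : 2 ^ v - 1 ≠ 0 := by
    have : 2 ^ 1 ≤ 2 ^ v := Nat.pow_le_pow_right (by norm_num) (by omega)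
    omega
  have hne : (2 ^ g - 1) * k ≠ 0 := Nat.mul_ne_zero (by omega) (by omega)
  have hdvd : 2 ^ v - 1 ∣ (2 ^ g - 1) * k := by
    rw [← Nat.factorization_prime_le_iff_dvd hv1 hne]
    intro p hp
    have : Fact p.Prime := ⟨hp⟩
    rw [Nat.factorization_def _ hp, Nat.factorization_def _ hp]
    by_cases hpv : p ∣ 2 ^ v - 1
    · have hp2 : p ≠ 2 := by
        rintro rfl
        have h2 : 2 ∣ 2 ^ v := dvd_pow_self 2 (by omega)
        omega
      have hpu := hcon p hp hp2 hpv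
      have hpg : p ∣ 2 ^ g - 1 := by
        rw [dvd_two_pow_iff] at hpu hpv ⊢
        exact Nat.dvd_gcd hpu hpv
      rw [hk, val_pow_mul hp hp2 hg (by omega) hpg, padicValNat.mul (by omega) (by omega)]
    · rw [padicValNat.eq_zero_of_not_dvd hpv]
      exact Nat.zero_le _
  have := Nat.le_of_dvd (by omega) hdvd
  rw [hk, pow_mul] at this
  omega

lemma val_num (w u : ℕ) : ((2 : ℚ) ^ (2 ^ (w + u)) / 2 ^ (2 ^ w)) ^ 2 - 1 =
    ((2 ^ (2 ^ (w + 1) * (2 ^ u - 1)) - 1 : ℕ) : ℚ) := by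
  rw [cast_two_pow_sub]
  have h1 : 2 ^ (w + u) = 2 ^ w + 2 ^ w * (2 ^ u - 1) := by
    rw [pow_add, Nat.mul_sub, mul_one]
    have : 2 ^ w * 1 ≤ 2 ^ w * 2 ^ u := Nat.mul_le_mul_left _ Nat.one_le_two_pow
    omega
  have h2 : (2 : ℚ) ^ (2 ^ w) ≠ 0 := by positivity
  rw [h1, pow_add, mul_div_cancel_left₀ _ h2, ← pow_mul]
  congr 2
  ring

lemma val_den (v : ℕ) : ((2 : ℚ) ^ (2 ^ v) / 2) ^ 2 - 1 =
    ((2 ^ (2 * (2 ^ v - 1)) - 1 : ℕ) : ℚ) := by
  rw [cast_two_pow_sub]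
  have h1 : 2 ^ v = 1 + (2 ^ v - 1) := by
    have : 1 ≤ 2 ^ v := Nat.one_le_two_pow
    omega
  have h2 : (2 : ℚ) ^ (2 ^ v) / 2 = 2 ^ (2 ^ v - 1) := by
    rw [h1, pow_add, pow_one, mul_div_cancel_left₀ _ (by norm_num : (2 : ℚ) ≠ 0)]
    simp
  rw [h2, ← pow_mul, mul_comm 2]

/-- the divisor relation between the exponents -/
theorem prod_iff (w v u : ℕ) (hw : 1 ≤ w) (hv : 1 ≤ v) (hu : 1 ≤ u) :
    Sum2 ((((2 : ℚ) ^ (2 ^ (w + u)) / 2 ^ (2 ^ w)) ^ 2 - 1) / (((2 : ℚ) ^ (2 ^ v) / 2) ^ 2 - 1)) ↔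
      u = v := by
  have hX : 1 ≤ 2 ^ v - 1 := by
    have : 2 ^ 1 ≤ 2 ^ v := Nat.pow_le_pow_right (by norm_num) hv
    omega
  have hY : 1 ≤ 2 ^ u - 1 := by
    have : 2 ^ 1 ≤ 2 ^ u := Nat.pow_le_pow_right (by norm_num) hu
    omega
  rw [val_num, val_den]
  constructor
  · intro h
    by_contra hne
    have hx : 0 < 2 * (2 ^ v - 1) := by omega
    have hy : 0 < 2 ^ (w + 1) * (2 ^ u - 1) := by positivity
    have hx1 : 0 < 2 ^ (2 * (2 ^ v - 1)) - 1 := by
      have : 2 ^ 1 ≤ 2 ^ (2 * (2 ^ v - 1)) := Nat.pow_le_pow_right (by norm_num) hx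
      omega
    have hy1 : 0 < 2 ^ (2 ^ (w + 1) * (2 ^ u - 1)) - 1 := by
      have : 2 ^ 1 ≤ 2 ^ (2 ^ (w + 1) * (2 ^ u - 1)) := Nat.pow_le_pow_right (by norm_num) hy
      omega
    have h2y : 2 ∣ 2 ^ (w + 1) * (2 ^ u - 1) :=
      dvd_mul_of_dvd_left (dvd_pow_self 2 (by omega)) _
    rcases lt_or_gt_of_ne hne with huv | huv
    · obtain ⟨l, hl, hl2, hlv, hlu⟩ := sep hu huv
      have h1 : ¬ l ∣ 2 ^ (w + 1) * (2 ^ u - 1) := by
        intro h
        rcases (hl.dvd_mul).1 h with h | h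
        · exact hl2 ((Nat.prime_dvd_prime_iff_eq hl Nat.prime_two).1 (hl.dvd_of_dvd_pow h))
        · exact hlu h
      obtain ⟨r, hr, hr3, hodd, hz⟩ := asym hx (dvd_mul_right 2 _) hl hl2
        (dvd_mul_of_dvd_right hlv 2) h1
      exact not_sum2_of_odd hr hr3 hy1 hx1 (by rw [hz, zero_add]; exact hodd) h
    · obtain ⟨l, hl, hl2, hlv, hlu⟩ := sep hv huv
      have h1 : ¬ l ∣ 2 * (2 ^ v - 1) := by
        intro h
        rcases (hl.dvd_mul).1 h with h | h
        · exact hl2 ((Nat.prime_dvd_prime_iff_eq hl Nat.prime_two).1 h)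
        · exact hlu h
      obtain ⟨r, hr, hr3, hodd, hz⟩ := asym hy h2y hl hl2 (dvd_mul_of_dvd_right hlv _) h1
      exact not_sum2_of_odd hr hr3 hy1 hx1 (by rw [hz, add_zero]; exact hodd) h
  · rintro rfl
    rw [cast_two_pow_sub, cast_two_pow_sub]
    have h1 : (2 : ℚ) ^ (2 ^ (w + 1) * (2 ^ u - 1)) = (2 ^ (2 * (2 ^ u - 1))) ^ (2 ^ w) := by
      rw [← pow_mul]; congr 1; ring
    have h2 : (2 : ℚ) ^ (2 * (2 ^ u - 1)) - 1 ≠ 0 := by
      have h3 : (1 : ℚ) < 2 ^ (2 * (2 ^ u - 1)) := one_lt_pow₀ (by norm_num) (by omega)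
      linarith
    rw [h1, geo_prod, mul_div_cancel_left₀ _ h2]
    apply sum2_prod
    intro i _
    refine ⟨(2 ^ (2 ^ u - 1)) ^ (2 ^ i), 1, ?_⟩
    rw [← pow_mul, ← pow_mul, ← pow_mul, one_pow]
    congr 2
    ring

end Vale.Agent.P027.R2.H955
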