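import Vale.Agent.P027.R2.H955.LucasForced
import Vale.Agent.P027.R2.H955.Pow

set_option linter.all false

/-!
Powers of two and products of Lucas numbers detected by norms from `ℚ(√2)`.
-/

namespace Vale.Agent.P027.R2.H955

open Vale.Agent.P027.T2

lemma forced_three {l s : ℕ} (hl : l.Prime) (hlo : l ≠ 2) (hs : s.Prime) (hls : l < s)
    (hne : ∀ e, (s : ℤ) ∣ U (2 * e) ↔ l ∣ e) : Forced (2 * (l * s)) := by
  have hl2 := hl.two_le
  have hs2 := hs.two_le
  have hls2 : 2 ≤ l * s := by nlinarith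
  have hso : s ≠ 2 := by omega
  have hchi : ZMod.χ₈ (((U (2 * (2 * (l * s)))).natAbs * (U (2 * (l * s))).natAbs *
      (U (2 * (2 * l))).natAbs * (U (2 * (2 * s))).natAbs * (U (2 * l)).natAbs *
      (U (2 * s)).natAbs * (U (2 * 2)).natAbs : ℕ) : ZMod 8) = -1 := by
    rw [Nat.cast_mul, Nat.cast_mul, Nat.cast_mul, Nat.cast_mul, Nat.cast_mul, Nat.cast_mul,
      map_mul, map_mul, map_mul, map_mul, map_mul, map_mul, chi_U hls2, chi_U hl2, chi_U hs2,
      chi_U (e := 2 * (l * s)) (by omega), chi_U (e := 2 * l) (by omega),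
      chi_U (e := 2 * s) (by omega), chi_U (e := 2) le_rfl]
    norm_num
  obtain ⟨r, hr, h8, hodd⟩ := exists_prime_eight hchi
  obtain ⟨hr2, ρ, h1, h2, hρ⟩ := rank_facts hr h8
  have : Fact r.Prime := ⟨hr⟩
  have n1 := u_ne (e := 2 * (l * s)) (by omega)
  have n2 := u_ne (e := l * s) (by omega)
  have n3 := u_ne (e := 2 * l) (by omega)
  have n4 := u_ne (e := 2 * s) (by omega)
  have n5 := u_ne (e := l) (by omega)
  have n6 := u_ne (e := s) (by omega)
  have n7 := u_ne (e := 2) (by omega)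
  have m2 := mul_ne_zero n1 n2
  have m3 := mul_ne_zero m2 n3
  have m4 := mul_ne_zero m3 n4
  have m5 := mul_ne_zero m4 n5
  have m6 := mul_ne_zero m5 n6
  rw [padicValNat.mul m6 n7, padicValNat.mul m5 n6, padicValNat.mul m4 n5, padicValNat.mul m3 n4,
    padicValNat.mul m2 n3, padicValNat.mul n1 n2] at hodd
  change Odd (A r (2 * (l * s)) + A r (l * s) + A r (2 * l) + A r (2 * s) + A r l + A r s +
    A r 2) at hodd
  have hls' : l ≠ s := hls.ne
  have hρls : ρ ∣ 2 * (l * s) := by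
    by_contra h
    have a1 := A_zero hr hr2 hρ h
    have a2 := A_zero hr hr2 hρ (e := l * s) (fun h' => h (h'.mul_left _))
    have a3 := A_zero hr hr2 hρ (e := 2 * l) (fun h' => h (by
      rw [← mul_assoc]; exact h'.mul_right _))
    have a4 := A_zero hr hr2 hρ (e := 2 * s) (fun h' => h (by
      have e : 2 * (l * s) = l * (2 * s) := by ring
      rw [e]; exact h'.mul_left _))
    have a5 := A_zero hr hr2 hρ (e := l) (fun h' => h ((h'.mul_right _).mul_left _))
    have a6 := A_zero hr hr2 hρ (e := s) (fun h' => h ((h'.mul_left _).mul_left _))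
    have a7 := A_zero hr hr2 hρ (e := 2) (fun h' => h (h'.mul_right _))
    rw [a1, a2, a3, a4, a5, a6, a7] at hodd
    simp at hodd
  have h2p := Nat.prime_two
  have e1 : l * (2 * s) = 2 * (l * s) := by ring
  have e2 : s * (2 * l) = 2 * (l * s) := by ring
  have e3 : s * l = l * s := by ring
  by_cases hrl : r = l
  · exfalso
    subst hrl
    have b1 : ¬ r ∣ ρ := fun h => by have := Nat.le_of_dvd (by omega) h; omega
    have b2 : ¬ s ∣ ρ := fun h => by have := Nat.le_of_dvd (by omega) h; omega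
    have c0 := ((Nat.Prime.coprime_iff_not_dvd hl).2 b1).symm
    have c1 := ((Nat.Prime.coprime_iff_not_dvd hs).2 b2).symm
    have c2 : ρ ∣ 2 := (c0.mul_right c1).dvd_of_dvd_mul_right hρls
    have c3 : ρ = 2 := (h2p.eq_one_or_self_of_dvd ρ c2).resolve_left (by omega)
    subst c3
    have a1 := A_mul hr hr2 hρ (e := 2) (k := r * s) (dvd_refl _) (by omega) (by omega)
    have a2 := A_zero hr hr2 hρ (e := r * s) (fun h => by
      rcases (Nat.Prime.dvd_mul h2p).1 h with h | h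
      · exact hr2 ((Nat.prime_dvd_prime_iff_eq h2p hr).1 h).symm
      · exact hso ((Nat.prime_dvd_prime_iff_eq h2p hs).1 h).symm)
    have a3 := A_mul hr hr2 hρ (e := 2) (k := r) (dvd_refl _) (by omega) (by omega)
    have a4 := A_mul hr hr2 hρ (e := 2) (k := s) (dvd_refl _) (by omega) (by omega)
    have a5 := A_zero hr hr2 hρ (e := r) (fun h =>
      hr2 ((Nat.prime_dvd_prime_iff_eq h2p hr).1 h).symm)
    have a6 := A_zero hr hr2 hρ (e := s) (fun h =>
      hso ((Nat.prime_dvd_prime_iff_eq h2p hs).1 h).symm)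
    have v1 : padicValNat r s = 0 := padicValNat.eq_zero_of_not_dvd fun h =>
      hls' ((Nat.prime_dvd_prime_iff_eq hr hs).1 h)
    have v2 : padicValNat r r = 1 := padicValNat_self
    have v3 : padicValNat r (r * s) = 1 := by
      rw [padicValNat.mul (by omega) (by omega), v1, v2]
    rw [a1, a2, a3, a4, a5, a6, v1, v2, v3] at hodd
    obtain ⟨c, hc⟩ := hodd
    omega
  by_cases hrs : r = s
  · exfalso
    subst hrs
    have hρl : ρ = l := by
      apply Nat.dvd_antisymm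
      · rw [← hρ, hne]
      · rw [← hne, hρ]
    subst hρl
    have hn : ¬ ρ ∣ r := fun h => hls' ((Nat.prime_dvd_prime_iff_eq hl hr).1 h)
    have hn2 : ¬ ρ ∣ 2 := fun h => hlo ((Nat.prime_dvd_prime_iff_eq hl h2p).1 h)
    have v2 : padicValNat r r = 1 := padicValNat_self
    have v3 : padicValNat r 2 = 0 := padicValNat.eq_zero_of_not_dvd fun h =>
      hr2 ((Nat.prime_dvd_prime_iff_eq hr h2p).1 h)
    have a0 := A_mul hr hr2 hρ (e := ρ) (k := 2) (dvd_refl _) (by omega) (by omega)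
    have a1 := A_mul hr hr2 hρ (e := 2 * ρ) (k := r) (dvd_mul_left _ _) (by omega) (by omega)
    have a2 := A_mul hr hr2 hρ (e := ρ) (k := r) (dvd_refl _) (by omega) (by omega)
    have a4 := A_zero hr hr2 hρ (e := 2 * r) (fun h => by
      rcases (Nat.Prime.dvd_mul hl).1 h with h | h
      · exact hn2 h
      · exact hn h)
    have a6 := A_zero hr hr2 hρ hn
    have a7 := A_zero hr hr2 hρ hn2
    rw [mul_assoc] at a1
    rw [mul_comm ρ 2] at a0
    rw [a1, a2, a4, a6, a7, a0, v2, v3] at hodd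
    obtain ⟨c, hc⟩ := hodd
    omega
  have d0 : 2 ∣ ρ := by
    by_contra h
    have a1 := A_inv hr hr2 hρ h2p (Ne.symm hr2) h (e := l * s) (by omega)
    have a2 := A_inv hr hr2 hρ h2p (Ne.symm hr2) h (e := l) (by omega)
    have a3 := A_inv hr hr2 hρ h2p (Ne.symm hr2) h (e := s) (by omega)
    have a4 := A_inv hr hr2 hρ h2p (Ne.symm hr2) h (e := 1) (by omega)
    rw [mul_one, A_one] at a4
    rw [a1, a2, a3, a4] at hodd
    obtain ⟨c, hc⟩ := hodd
    omega
  have d1 : l ∣ ρ := by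
    by_contra h
    have a1 := A_inv hr hr2 hρ hl (Ne.symm hrl) h (e := 2 * s) (by omega)
    have a2 := A_inv hr hr2 hρ hl (Ne.symm hrl) h (e := s) (by omega)
    have a3 := A_inv hr hr2 hρ hl (Ne.symm hrl) h (e := 2) (by omega)
    have a4 := A_inv hr hr2 hρ hl (Ne.symm hrl) h (e := 1) (by omega)
    rw [mul_one, A_one] at a4
    rw [e1] at a1
    rw [mul_comm l 2] at a3
    rw [a1, a2, a3, a4] at hodd
    obtain ⟨c, hc⟩ := hodd
    omega
  have d2 : s ∣ ρ := by
    by_contra h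
    have a1 := A_inv hr hr2 hρ hs (Ne.symm hrs) h (e := 2 * l) (by omega)
    have a2 := A_inv hr hr2 hρ hs (Ne.symm hrs) h (e := l) (by omega)
    have a3 := A_inv hr hr2 hρ hs (Ne.symm hrs) h (e := 2) (by omega)
    have a4 := A_inv hr hr2 hρ hs (Ne.symm hrs) h (e := 1) (by omega)
    rw [mul_one, A_one] at a4
    rw [e2] at a1
    rw [e3] at a2
    rw [mul_comm s 2] at a3
    rw [a1, a2, a3, a4] at hodd
    obtain ⟨c, hc⟩ := hodd
    omega
  have d3 : ρ = 2 * (l * s) := by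
    apply Nat.dvd_antisymm hρls
    apply Nat.Coprime.mul_dvd_of_dvd_of_dvd _ d0
    · exact Nat.Coprime.mul_dvd_of_dvd_of_dvd ((Nat.coprime_primes hl hs).2 hls') d1 d2
    · exact ((Nat.coprime_primes h2p hl).2 (Ne.symm hlo)).mul_right
        ((Nat.coprime_primes h2p hs).2 (Ne.symm hso))
  rw [d3] at hρ h2
  have hls3 : l < l * s := by nlinarith
  have hls4 : s < l * s := by nlinarith
  have key : ∀ e, 1 ≤ e → e < 2 * (l * s) → A r e = 0 := by
    intro e he1 he2
    apply A_zero hr hr2 hρ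
    intro h
    have := Nat.le_of_dvd (by omega) h
    omega
  rw [key (l * s) (by omega) (by omega), key (2 * l) (by omega) (by omega),
    key (2 * s) (by omega) (by omega), key l (by omega) (by omega), key s (by omega) (by omega),
    key 2 (by omega) (by omega)] at hodd
  exact ⟨r, hr, h8, h2, hρ, hodd⟩

/-- the asymmetric separation lemma -/
lemma asymU {E E' l : ℕ} (hE : 0 < E) (hE2 : 2 ∣ E) (hl : l.Prime) (hl2 : l ≠ 2)
    (hlE : l ∣ E) (hlE' : ¬ l ∣ E') :
    ∃ r : ℕ, r.Prime ∧ (r % 8 = 3 ∨ r % 8 = 5) ∧ Odd (A r E) ∧ A r E' = 0 := by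
  have hlE2 := Nat.le_of_dvd hE hlE
  obtain ⟨s, hs, hsE, hmax⟩ := exists_largest (g := E) (by have := hl.two_le; omega)
  have hls : l ≤ s := hmax l hl hlE
  have hl2' := hl.two_le
  have hs3 : 3 ≤ s := by omega
  suffices h : ∃ d, Forced d ∧ d ∣ E ∧ ¬ d ∣ E' ∧ s ≤ d by
    obtain ⟨d, ⟨r, hr, h8, h1, h2, h3⟩, hdE, hdE', hsd⟩ := h
    have : Fact r.Prime := ⟨hr⟩
    have hr2 : r ≠ 2 := by omega
    refine ⟨r, hr, h8, ?_, A_zero hr hr2 h2 hdE'⟩
    obtain ⟨k, rfl⟩ := hdE
    have hk : 1 ≤ k := Nat.pos_of_ne_zero (by rintro rfl; simp at hE)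
    rw [A_mul hr hr2 h2 (dvd_refl d) (by omega) hk]
    have hrk : ¬ r ∣ k := by
      intro h
      have := hmax r hr (h.mul_left _)
      omega
    rwa [padicValNat.eq_zero_of_not_dvd hrk, add_zero]
  by_cases hsE' : s ∣ E'
  · have hne : l ≠ s := by
      rintro rfl
      exact hlE' hsE'
    have hlt : l < s := lt_of_le_of_ne hls hne
    have hlsE : l * s ∣ E :=
      Nat.Coprime.mul_dvd_of_dvd_of_dvd ((Nat.coprime_primes hl hs).2 hne) hlE hsE
    have hls1 : s ≤ l * s := by nlinarith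
    by_cases hc : ∀ e, (s : ℤ) ∣ U (2 * e) ↔ l ∣ e
    · refine ⟨2 * (l * s), forced_three hl hl2 hs hlt hc, ?_, ?_, by omega⟩
      · apply Nat.Coprime.mul_dvd_of_dvd_of_dvd _ hE2 hlsE
        exact ((Nat.coprime_primes Nat.prime_two hl).2 (Ne.symm hl2)).mul_right
          ((Nat.coprime_primes Nat.prime_two hs).2 (by omega))
      · intro h
        exact hlE' (((dvd_mul_right l s).mul_left 2).trans h)
    · refine ⟨l * s, forced_two hl hs hlt hc, hlsE, ?_, hls1⟩
      intro h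
      exact hlE' ((dvd_mul_right l s).trans h)
  · exact ⟨s, forced_one hs, hsE, hsE', le_rfl⟩

/-! ### the norms -/

lemma n2_V {m : ℕ} (hm : Even m) : N2 (V (2 * m) : ℚ) := by
  obtain ⟨k, rfl⟩ := hm
  refine ⟨(V (k + k) : ℚ), 2 ^ k, ?_⟩
  rw [V_two_mul]
  push_cast
  rw [pow_add]
  ring

lemma n2_tower (g : ℕ) (hg : 1 ≤ g) (he : Even g) (w : ℕ) :
    N2 ((U (2 * (2 ^ w * g)) : ℚ) / U (2 * g)) := by
  have h0 : (U (2 * g) : ℚ) ≠ 0 := by exact_mod_cast U_ne_zero (n := 2 * g) (by omega)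
  induction w with
  | zero =>
    rw [pow_zero, one_mul, div_self h0]
    exact n2_one
  | succ w ih =>
    have e : 2 * (2 ^ (w + 1) * g) = 2 * (2 * (2 ^ w * g)) := by ring
    rw [e, U_two_mul, Int.cast_mul, mul_div_right_comm]
    exact n2_mul ih (n2_V (he.mul_left _))

end Vale.Agent.P027.R2.H955

namespace Vale.Agent.P027.T2

open Vale.Agent.P027.R2.H955

theorem powU_iff (n : ℕ) (hn : 1 ≤ n) : N2 ((U (2 * n) : ℚ) / 3) ↔ ∃ w, 1 ≤ w ∧ n = 2 ^ w := by
  have h3p : Nat.Prime 3 := Nat.prime_three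
  have : Fact (Nat.Prime 3) := ⟨h3p⟩
  have e3 : ((3 : ℤ) : ℚ) = 3 := by norm_num
  have hU0 : U (2 * n) ≠ 0 := U_ne_zero (by omega)
  constructor
  · intro h
    rcases Nat.even_or_odd n with hev | hod
    · by_cases hpow : ∃ w, n = 2 ^ w
      · obtain ⟨w, hw⟩ := hpow
        refine ⟨w, ?_, hw⟩
        rcases Nat.eq_zero_or_pos w with h0 | h0
        · rw [h0, pow_zero] at hw
          rw [hw] at hev
          exact absurd hev (by decide)
        · exact h0
      · exfalso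
        have hl : ∃ l : ℕ, l.Prime ∧ l ∣ n ∧ l ≠ 2 := by
          by_contra hcon
          push Not at hcon
          exact hpow ⟨_, Nat.eq_prime_pow_of_unique_prime_dvd (by omega)
            (fun {d} hd hdn => hcon d hd hdn)⟩
        obtain ⟨l, hl, hln, hl2⟩ := hl
        have hl2' : ¬ l ∣ 2 := fun h => hl2 ((Nat.prime_dvd_prime_iff_eq hl Nat.prime_two).1 h)
        obtain ⟨r, hr, h8, hodd, hz⟩ := asymU (E := n) (E' := 2) hn hev.two_dvd hl hl2 hln hl2'
        have hr3 : padicValNat r 3 = 0 := by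
          have e : (U (2 * 2)).natAbs = 3 := by decide
          unfold A at hz
          rwa [e] at hz
        rw [← e3] at h
        refine not_N2_of_odd hr h8 hU0 (by norm_num) ?_ h
        have e : (3 : ℤ).natAbs = 3 := rfl
        rw [e, hr3, add_zero]
        exact hodd
    · exfalso
      obtain ⟨hr2, ρ, h1, h2, hρ⟩ := rank_facts h3p (Or.inl rfl)
      have h4 : ρ = 2 := by omega
      rw [h4] at hρ
      have hz := A_zero h3p hr2 hρ (e := n) (by
        intro h
        obtain ⟨c, hc⟩ := hod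
        omega)
      rw [← e3] at h
      refine not_N2_of_odd h3p (Or.inl rfl) hU0 (by norm_num) ?_ h
      have e : (3 : ℤ).natAbs = 3 := rfl
      unfold A at hz
      rw [e, hz, zero_add, padicValNat_self]
      exact odd_one
  · rintro ⟨w, hw, rfl⟩
    obtain ⟨v, rfl⟩ := Nat.exists_eq_add_of_le' hw
    have h1 := n2_tower 2 (by norm_num) (by decide) v
    have e : (U (2 * 2) : ℚ) = -3 := by
      have : U (2 * 2) = -3 := by decide
      rw [this]
      norm_num
    rw [e, div_neg, ← pow_succ] at h1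
    have h2 := n2_neg h1
    rwa [neg_neg] at h2

theorem prodU_iff (w v u : ℕ) (hw : 1 ≤ w) (hv : 1 ≤ v) (hu : 1 ≤ u) :
    N2 ((U (4 * (2 ^ (w + u) - 2 ^ w)) : ℚ) / U (4 * (2 ^ v - 1))) ↔ u = v := by
  have hX : ∀ x, 1 ≤ x → 1 ≤ 2 ^ x - 1 := by
    intro x hx
    have : 2 ^ 1 ≤ 2 ^ x := Nat.pow_le_pow_right (by norm_num) hx
    omega
  have e1 : 4 * (2 ^ (w + u) - 2 ^ w) = 2 * (2 ^ w * (2 * (2 ^ u - 1))) := by
    have : 2 ^ (w + u) - 2 ^ w = 2 ^ w * (2 ^ u - 1) := by
      rw [Nat.mul_sub, mul_one, pow_add]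
    rw [this]
    ring
  have e2 : 4 * (2 ^ v - 1) = 2 * (2 * (2 ^ v - 1)) := by ring
  rw [e1, e2]
  have hXu := hX u hu
  have hXv := hX v hv
  have hw1 : 1 ≤ 2 ^ w := Nat.one_le_two_pow
  have hE1 : 1 ≤ 2 ^ w * (2 * (2 ^ u - 1)) := Nat.mul_pos hw1 (by omega)
  have hE2 : 1 ≤ 2 * (2 ^ v - 1) := by omega
  have z1 : U (2 * (2 ^ w * (2 * (2 ^ u - 1)))) ≠ 0 := U_ne_zero (by omega)
  have z2 : U (2 * (2 * (2 ^ v - 1))) ≠ 0 := U_ne_zero (by omega)
  constructor
  · intro h
    by_contra hne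
    rcases Nat.lt_or_gt_of_ne hne with hlt | hlt
    · obtain ⟨l, hl, hl2, h1, h2⟩ := sep hu hlt
      have hnd : ¬ l ∣ 2 ^ w * (2 * (2 ^ u - 1)) := by
        intro h'
        have hl2' : ¬ l ∣ 2 := fun h => hl2 ((Nat.prime_dvd_prime_iff_eq hl Nat.prime_two).1 h)
        rcases (Nat.Prime.dvd_mul hl).1 h' with h'' | h''
        · exact hl2' (hl.dvd_of_dvd_pow h'')
        · rcases (Nat.Prime.dvd_mul hl).1 h'' with h3 | h3
          · exact hl2' h3
          · exact h2 h3
      obtain ⟨r, hr, h8, hodd, hz⟩ := asymU (E := 2 * (2 ^ v - 1))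
        (E' := 2 ^ w * (2 * (2 ^ u - 1))) hE2 (dvd_mul_right _ _) hl hl2 (h1.mul_left _) hnd
      refine not_N2_of_odd hr h8 z1 z2 ?_ h
      unfold A at hodd hz
      rwa [hz, zero_add]
    · obtain ⟨l, hl, hl2, h1, h2⟩ := sep hv hlt
      have hnd : ¬ l ∣ 2 * (2 ^ v - 1) := by
        intro h'
        have hl2' : ¬ l ∣ 2 := fun h => hl2 ((Nat.prime_dvd_prime_iff_eq hl Nat.prime_two).1 h)
        rcases (Nat.Prime.dvd_mul hl).1 h' with h3 | h3
        · exact hl2' h3
        · exact h2 h3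
      obtain ⟨r, hr, h8, hodd, hz⟩ := asymU (E := 2 ^ w * (2 * (2 ^ u - 1)))
        (E' := 2 * (2 ^ v - 1)) hE1 ((dvd_mul_right _ _).mul_left _) hl hl2
        ((h1.mul_left _).mul_left _) hnd
      refine not_N2_of_odd hr h8 z1 z2 ?_ h
      unfold A at hodd hz
      rwa [hz, add_zero]
  · rintro rfl
    exact n2_tower (2 * (2 ^ u - 1)) hE2 (even_two_mul _) w

end Vale.Agent.P027.T2
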