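import Vale.Agent.P027.R2.H955.LucasRank

set_option linter.all false

/-!
Lifting the exponent and forced primes for the Lucas numbers of `(1 + √-7) / 2`.
-/

namespace Vale.Agent.P027.R2.H955

open Vale.Agent.P027.T2

/-- valuation of `U (2 e)` -/
def A (r e : ℕ) : ℕ := padicValNat r (U (2 * e)).natAbs

lemma not_dvd_of_not_dvd_k {r m k : ℕ} (hr : r.Prime) (hr2 : r ≠ 2) (hm : (r : ℤ) ∣ U m)
    (hk : ¬ r ∣ k) {S c : ℤ}
    (h : 2 ^ k * S = 2 * (k * V m ^ (k - 1) + U m ^ 2 * c)) : ¬ (r : ℤ) ∣ S := by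
  intro hS
  have hp : Prime (r : ℤ) := Nat.prime_iff_prime_int.1 hr
  have h1 : (r : ℤ) ∣ 2 ^ k * S := hS.mul_left _
  rw [h] at h1
  have h2 : ¬ (r : ℤ) ∣ 2 := by
    have := not_dvd_two_pow hr hr2 1
    rwa [pow_one] at this
  have h3 := (hp.dvd_or_dvd h1).resolve_left h2
  have h4 : (r : ℤ) ∣ U m ^ 2 * c := (hm.trans (dvd_pow_self _ two_ne_zero)).mul_right _
  have h5 := (dvd_add_left h4).1 h3
  rcases hp.dvd_or_dvd h5 with h6 | h6
  · exact hk (Int.natCast_dvd_natCast.1 h6)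
  · exact not_dvd_V hr hr2 hm (hp.dvd_of_dvd_pow h6)

lemma val_one {r m : ℕ} (hr : r.Prime) (hr2 : r ≠ 2) (hm : (r : ℤ) ∣ U m) {S c : ℤ}
    (h : 2 ^ r * S = 2 * (r * V m ^ (r - 1) + U m ^ 2 * c)) :
    (r : ℤ) ∣ S ∧ ¬ (r : ℤ) ^ 2 ∣ S := by
  have hp : Prime (r : ℤ) := Nat.prime_iff_prime_int.1 hr
  have h2 : ¬ (r : ℤ) ∣ 2 := by
    have := not_dvd_two_pow hr hr2 1
    rwa [pow_one] at this
  have hr0 : (r : ℤ) ≠ 0 := by exact_mod_cast hr.ne_zero
  have h4 : (r : ℤ) ^ 2 ∣ U m ^ 2 * c := (pow_dvd_pow_of_dvd hm 2).mul_right _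
  constructor
  · have h5 : (r : ℤ) ∣ 2 ^ r * S := by
      rw [h]
      exact (dvd_add ((dvd_refl _).mul_right _)
        ((dvd_pow_self _ two_ne_zero).trans h4)).mul_left _
    exact (hp.dvd_or_dvd h5).resolve_left (not_dvd_two_pow hr hr2 r)
  · intro hS
    have h1 : (r : ℤ) ^ 2 ∣ 2 ^ r * S := hS.mul_left _
    rw [h, mul_add] at h1
    have h5 := (dvd_add_left (h4.mul_left 2)).1 h1
    have h6 : (2 : ℤ) * (r * V m ^ (r - 1)) = r * (2 * V m ^ (r - 1)) := by ring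
    rw [h6, pow_two] at h5
    have h7 := (mul_dvd_mul_iff_left hr0).1 h5
    rcases hp.dvd_or_dvd h7 with h8 | h8
    · exact h2 h8
    · exact not_dvd_V hr hr2 hm (hp.dvd_of_dvd_pow h8)

/-- lifting the exponent -/
lemma lte {r m : ℕ} (hr : r.Prime) (hr2 : r ≠ 2) (hm1 : 1 ≤ m) (hm : (r : ℤ) ∣ U m) :
    ∀ k : ℕ, 1 ≤ k →
      padicValNat r (U (m * k)).natAbs = padicValNat r (U m).natAbs + padicValNat r k := by
  have : Fact r.Prime := ⟨hr⟩
  intro k
  induction k using Nat.strong_induction_on with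
  | _ k ih =>
    intro hk
    by_cases hrk : r ∣ k
    · obtain ⟨k1, rfl⟩ := hrk
      have hk1 : 1 ≤ k1 := Nat.pos_of_ne_zero (by rintro rfl; simp at hk)
      have hlt : k1 < r * k1 := by
        have := hr.two_le
        nlinarith
      have h1 := ih k1 hlt hk1
      obtain ⟨S, S', c, c', h2, -, h3, -⟩ := S_seq (m * k1) r
      have hdv : (r : ℤ) ∣ U (m * k1) := dvd_U_mul hr hr2 hm k1
      obtain ⟨h4, h5⟩ := val_one hr hr2 hdv h3
      have hS0 : S ≠ 0 := by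
        rintro rfl
        exact h5 (dvd_zero _)
      have hU0 : U (m * k1) ≠ 0 := U_ne_zero (Nat.mul_pos hm1 hk1)
      have e : m * (r * k1) = m * k1 * r := by ring
      have h6 : padicValNat r S.natAbs = 1 := by
        have hS0' : S.natAbs ≠ 0 := Int.natAbs_ne_zero.2 hS0
        have h7 : 1 ≤ padicValNat r S.natAbs := by
          rw [← padicValNat_dvd_iff_le hS0', pow_one]
          exact Int.natCast_dvd.1 h4
        have h8 : ¬ 2 ≤ padicValNat r S.natAbs := by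
          rw [← padicValNat_dvd_iff_le hS0']
          intro h
          apply h5
          have := Int.natCast_dvd.2 h
          exact_mod_cast this
        omega
      rw [e, h2, Int.natAbs_mul, padicValNat.mul (Int.natAbs_ne_zero.2 hU0)
        (Int.natAbs_ne_zero.2 hS0), h1, h6, padicValNat.mul hr.ne_zero (by omega),
        padicValNat_self]
      omega
    · obtain ⟨S, S', c, c', h2, -, h3, -⟩ := S_seq m k
      have h4 := not_dvd_of_not_dvd_k hr hr2 hm hrk h3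
      have hS0 : S ≠ 0 := by
        rintro rfl
        exact h4 (dvd_zero _)
      have hU0 : U m ≠ 0 := U_ne_zero hm1
      have h5 : ¬ r ∣ S.natAbs := fun h => h4 (Int.natCast_dvd.2 h)
      rw [h2, Int.natAbs_mul, padicValNat.mul (Int.natAbs_ne_zero.2 hU0)
        (Int.natAbs_ne_zero.2 hS0), padicValNat.eq_zero_of_not_dvd h5,
        padicValNat.eq_zero_of_not_dvd hrk]

section rank

variable {r ρ : ℕ} (hr : r.Prime) (hr2 : r ≠ 2) (hρ : ∀ e, (r : ℤ) ∣ U (2 * e) ↔ ρ ∣ e)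

include hr hr2 hρ

lemma A_zero {e : ℕ} (h : ¬ ρ ∣ e) : A r e = 0 := by
  apply padicValNat.eq_zero_of_not_dvd
  intro h1
  exact h ((hρ e).1 (Int.natCast_dvd.2 h1))

lemma A_mul {e k : ℕ} (h : ρ ∣ e) (he : 1 ≤ e) (hk : 1 ≤ k) :
    A r (e * k) = A r e + padicValNat r k := by
  unfold A
  rw [← mul_assoc]
  exact lte hr hr2 (by omega) ((hρ e).2 h) k hk

lemma A_inv {p e : ℕ} (hp : p.Prime) (hpr : p ≠ r) (hpρ : ¬ p ∣ ρ) (he : 1 ≤ e) :
    A r (p * e) = A r e := by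
  have : Fact r.Prime := ⟨hr⟩
  by_cases h : ρ ∣ e
  · rw [mul_comm, A_mul hr hr2 hρ h he hp.one_lt.le]
    have : ¬ r ∣ p := fun h1 => hpr ((Nat.prime_dvd_prime_iff_eq hr hp).1 h1).symm
    rw [padicValNat.eq_zero_of_not_dvd this, add_zero]
  · have h1 : ¬ ρ ∣ p * e := by
      intro h1
      exact h ((Nat.Coprime.dvd_of_dvd_mul_left ((Nat.Prime.coprime_iff_not_dvd hp).2 hpρ).symm h1))
    rw [A_zero hr hr2 hρ h, A_zero hr hr2 hρ h1]

end rank

lemma U_mod_eight (e : ℕ) : U (2 * (e + 2)) % 8 = 5 ∧ U (2 * (e + 2) + 1) % 8 = 7 := by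
  induction e with
  | zero => decide
  | succ e ih =>
    obtain ⟨h1, h2⟩ := ih
    have h3 := U_rec (2 * (e + 2))
    have h4 := U_rec (2 * (e + 2) + 1)
    have e1 : 2 * (e + 1 + 2) = 2 * (e + 2) + 2 := by ring
    have e2 : 2 * (e + 1 + 2) + 1 = 2 * (e + 2) + 1 + 2 := by ring
    rw [e1]
    have e3 : 2 * (e + 2) + 2 + 1 = 2 * (e + 2) + 1 + 2 := by ring
    rw [e3]
    have e4 : 2 * (e + 2) + 1 + 1 = 2 * (e + 2) + 2 := by ring
    rw [e4] at h4
    omega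

lemma chi_U {e : ℕ} (he : 2 ≤ e) : ZMod.χ₈ ((U (2 * e)).natAbs : ZMod 8) = -1 := by
  obtain ⟨f, rfl⟩ := Nat.exists_eq_add_of_le' he
  have h1 := (U_mod_eight f).1
  rw [ZMod.χ₈_nat_eq_if_mod_eight, if_neg (by omega), if_neg (by omega)]

lemma A_one (r : ℕ) : A r 1 = 0 := by
  have : U (2 * 1) = 1 := by decide
  unfold A
  rw [this]
  simp

lemma u_ne {e : ℕ} (he : 1 ≤ e) : (U (2 * e)).natAbs ≠ 0 :=
  Int.natAbs_ne_zero.2 (U_ne_zero (by omega))

/-- the conclusion of all the forced prime lemmas -/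
def Forced (d : ℕ) : Prop :=
  ∃ r : ℕ, r.Prime ∧ (r % 8 = 3 ∨ r % 8 = 5) ∧ 2 * d ≤ r + 1 ∧
    (∀ e, (r : ℤ) ∣ U (2 * e) ↔ d ∣ e) ∧ Odd (A r d)

lemma rank_facts {r : ℕ} (hr : r.Prime) (h8 : r % 8 = 3 ∨ r % 8 = 5) :
    r ≠ 2 ∧ ∃ ρ : ℕ, 1 < ρ ∧ 2 * ρ ≤ r + 1 ∧ ∀ e, (r : ℤ) ∣ U (2 * e) ↔ ρ ∣ e := by
  have h2 : r ≠ 2 := by omega
  exact ⟨h2, rank_exists hr h2 (by omega)⟩

lemma forced_one {s : ℕ} (hs : s.Prime) : Forced s := by
  obtain ⟨r, hr, h8, hodd⟩ := exists_prime_eight (chi_U hs.two_le)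
  obtain ⟨hr2, ρ, h1, h2, hρ⟩ := rank_facts hr h8
  have h3 : ρ ∣ s := by
    by_contra h
    have := A_zero hr hr2 hρ h
    unfold A at this
    rw [this] at hodd
    simp at hodd
  have h4 : ρ = s := (hs.eq_one_or_self_of_dvd ρ h3).resolve_left (by omega)
  rw [h4] at h2 hρ
  exact ⟨r, hr, h8, h2, hρ, hodd⟩

lemma forced_two {l s : ℕ} (hl : l.Prime) (hs : s.Prime) (hls : l < s)
    (hne : ¬ ∀ e, (s : ℤ) ∣ U (2 * e) ↔ l ∣ e) : Forced (l * s) := by
  have hl2 := hl.two_le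
  have hs2 := hs.two_le
  have hls2 : 2 ≤ l * s := by nlinarith
  have hchi : ZMod.χ₈ (((U (2 * (l * s))).natAbs * (U (2 * l)).natAbs * (U (2 * s)).natAbs : ℕ) :
      ZMod 8) = -1 := by
    rw [Nat.cast_mul, Nat.cast_mul, map_mul, map_mul, chi_U hls2, chi_U hl2, chi_U hs2]
    norm_num
  obtain ⟨r, hr, h8, hodd⟩ := exists_prime_eight hchi
  obtain ⟨hr2, ρ, h1, h2, hρ⟩ := rank_facts hr h8
  have : Fact r.Prime := ⟨hr⟩
  rw [padicValNat.mul (mul_ne_zero (u_ne (by omega)) (u_ne (by omega))) (u_ne (by omega)),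
    padicValNat.mul (u_ne (by omega)) (u_ne (by omega))] at hodd
  change Odd (A r (l * s) + A r l + A r s) at hodd
  have hls' : l ≠ s := hls.ne
  have hρls : ρ ∣ l * s := by
    by_contra h
    have a1 := A_zero hr hr2 hρ h
    have a2 := A_zero hr hr2 hρ (e := l) (fun h' => h (h'.mul_right _))
    have a3 := A_zero hr hr2 hρ (e := s) (fun h' => h (h'.mul_left _))
    rw [a1, a2, a3] at hodd
    simp at hodd
  by_cases hrl : r = l
  · exfalso
    subst hrl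
    have b1 : ¬ r ∣ ρ := fun h => by have := Nat.le_of_dvd (by omega) h; omega
    have b2 : ¬ s ∣ ρ := fun h => by have := Nat.le_of_dvd (by omega) h; omega
    have c1 := ((Nat.Prime.coprime_iff_not_dvd hl).2 b1).symm.dvd_of_dvd_mul_left hρls
    have c2 := ((Nat.Prime.coprime_iff_not_dvd hs).2 b2).symm
    have := Nat.Coprime.eq_one_of_dvd c2 c1
    omega
  by_cases hrs : r = s
  · exfalso
    subst hrs
    have b2 : ¬ r ∣ ρ := fun h => by have := Nat.le_of_dvd (by omega) h; omega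
    have c1 := ((Nat.Prime.coprime_iff_not_dvd hs).2 b2).symm.dvd_of_dvd_mul_right hρls
    have := (hl.eq_one_or_self_of_dvd ρ c1).resolve_left (by omega)
    rw [this] at hρ
    exact hne hρ
  have d1 : l ∣ ρ := by
    by_contra h
    have a1 := A_inv hr hr2 hρ hl (Ne.symm hrl) h (e := s) (by omega)
    have a2 := A_inv hr hr2 hρ hl (Ne.symm hrl) h (e := 1) (by omega)
    rw [mul_one, A_one] at a2
    rw [a1, a2] at hodd
    obtain ⟨c, hc⟩ := hodd
    omega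
  have d2 : s ∣ ρ := by
    by_contra h
    have a1 := A_inv hr hr2 hρ hs (Ne.symm hrs) h (e := l) (by omega)
    have a2 := A_inv hr hr2 hρ hs (Ne.symm hrs) h (e := 1) (by omega)
    rw [mul_one, A_one] at a2
    rw [mul_comm] at a1
    rw [a1, a2] at hodd
    obtain ⟨c, hc⟩ := hodd
    omega
  have d3 : ρ = l * s := Nat.dvd_antisymm hρls
    (Nat.Coprime.mul_dvd_of_dvd_of_dvd ((Nat.coprime_primes hl hs).2 hls') d1 d2)
  rw [d3] at hρ h2
  have a2 : A r l = 0 := by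
    apply A_zero hr hr2 hρ
    intro h
    have := Nat.le_of_dvd (by omega) h
    nlinarith
  have a3 : A r s = 0 := by
    apply A_zero hr hr2 hρ
    intro h
    have := Nat.le_of_dvd (by omega) h
    nlinarith
  rw [a2, a3, add_zero, add_zero] at hodd
  exact ⟨r, hr, h8, h2, hρ, hodd⟩

end Vale.Agent.P027.R2.H955
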