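import Vale.Agent.P027.R2.H955.LucasVal

set_option linter.all false

/-!
Rank of apparition and lifting the exponent for the Lucas numbers of `(1 + √-7) / 2`.
-/

namespace Vale.Agent.P027.R2.H955

open Vale.Agent.P027.T2

open Matrix in
lemma matrix_pow (R : Type*) [CommRing R] (n : ℕ) :
    (!![(1 : R), -2; 1, 0]) ^ (n + 1) =
      !![((U (n + 2) : ℤ) : R), ((-2 * U (n + 1) : ℤ) : R); ((U (n + 1) : ℤ) : R),
        ((-2 * U n : ℤ) : R)] := by
  induction n with
  | zero => simp [U]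
  | succ n ih =>
    rw [pow_succ, ih, Matrix.mul_fin_two, U_rec (n + 1), U_rec n]
    push_cast
    congr 1
    ext i j
    fin_cases i <;> fin_cases j <;> simp <;> ring

lemma V_eq (n : ℕ) : V (n + 1) = U (n + 2) - 2 * U n := by
  have h1 := U_step (n + 1)
  have h2 := U_step n
  have h3 := V_step n
  have h4 := U_rec n
  linarith

lemma V_prime {r : ℕ} (hr : r.Prime) : ((V r : ℤ) : ZMod r) = 1 := by
  have : Fact r.Prime := ⟨hr⟩
  obtain ⟨n, hn⟩ : ∃ n, r = n + 1 := ⟨r - 1, by have := hr.one_lt; omega⟩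
  have h1 := ZMod.trace_pow_card (p := r) (!![(1 : ZMod r), -2; 1, 0])
  have h2 := matrix_pow (ZMod r) n
  rw [← hn] at h2
  rw [h2, Matrix.trace_fin_two, Matrix.trace_fin_two] at h1
  have h3 : V r = U (n + 2) + -2 * U n := by
    rw [hn, V_eq]; ring
  rw [h3]
  simpa using h1

lemma dvd_U_pm {r : ℕ} (hr : r.Prime) (hr2 : r ≠ 2) (hr7 : r ≠ 7) :
    (r : ℤ) ∣ U (r + 1) ∨ (r : ℤ) ∣ U (r - 1) := by
  have : Fact r.Prime := ⟨hr⟩
  have h2 : (2 : ZMod r) ≠ 0 := by
    intro h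
    have : ((2 : ℕ) : ZMod r) = 0 := by exact_mod_cast h
    rw [ZMod.natCast_eq_zero_iff] at this
    exact hr2 ((Nat.prime_dvd_prime_iff_eq hr Nat.prime_two).1 this)
  have h7 : (7 : ZMod r) ≠ 0 := by
    intro h
    have : ((7 : ℕ) : ZMod r) = 0 := by exact_mod_cast h
    rw [ZMod.natCast_eq_zero_iff] at this
    exact hr7 ((Nat.prime_dvd_prime_iff_eq hr (by norm_num)).1 this)
  have hV := V_prime hr
  have hn : (V r : ZMod r) ^ 2 + 7 * (U r : ZMod r) ^ 2 = 4 * 2 ^ r := by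
    exact_mod_cast congrArg (fun z : ℤ => (z : ZMod r)) (UV_norm r)
  rw [hV, ZMod.pow_card] at hn
  have h3 : ((U r : ZMod r) - 1) * ((U r : ZMod r) + 1) = 0 := by
    have : 7 * (((U r : ZMod r) - 1) * ((U r : ZMod r) + 1)) = 0 := by linear_combination hn
    exact (mul_eq_zero.1 this).resolve_left h7
  obtain ⟨n, hn1⟩ : ∃ n, r = n + 1 := ⟨r - 1, by have := hr.one_lt; omega⟩
  have h4 : 2 * (U (r + 1) : ZMod r) = U r + V r := by
    exact_mod_cast congrArg (fun z : ℤ => (z : ZMod r)) (U_step r)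
  rw [hV] at h4
  rcases mul_eq_zero.1 h3 with h | h
  · right
    rw [← ZMod.intCast_zmod_eq_zero_iff_dvd]
    have h5 : (U (n + 2) : ZMod r) = U (n + 1) - 2 * U n := by
      exact_mod_cast congrArg (fun z : ℤ => (z : ZMod r)) (U_rec n)
    have e1 : n + 2 = r + 1 := by omega
    have e2 : n + 1 = r := by omega
    have e3 : r - 1 = n := by omega
    rw [e1, e2] at h5
    rw [e3]
    have h6 : 4 * (U n : ZMod r) = 0 := by linear_combination (2 : ZMod r) * h5 - h4 + h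
    have h7' : (4 : ZMod r) ≠ 0 := by
      have : (4 : ZMod r) = 2 * 2 := by norm_num
      rw [this]
      exact mul_ne_zero h2 h2
    exact (mul_eq_zero.1 h6).resolve_left h7'
  · left
    rw [← ZMod.intCast_zmod_eq_zero_iff_dvd]
    have h6 : 2 * (U (r + 1) : ZMod r) = 0 := by linear_combination h4 + h
    exact (mul_eq_zero.1 h6).resolve_left h2

/-- the rank of apparition in the sequence `U (2 e)` -/
lemma rank_exists {r : ℕ} (hr : r.Prime) (hr2 : r ≠ 2) (hr7 : r ≠ 7) :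
    ∃ ρ : ℕ, 1 < ρ ∧ 2 * ρ ≤ r + 1 ∧ ∀ e, (r : ℤ) ∣ U (2 * e) ↔ ρ ∣ e := by
  classical
  have hr3 : 3 ≤ r := by
    have := hr.two_le
    omega
  have hodd : r % 2 = 1 := hr.eq_two_or_odd.resolve_left hr2
  have hex : ∃ k, 1 ≤ k ∧ 2 * k ≤ r + 1 ∧ (r : ℤ) ∣ U (2 * k) := by
    rcases dvd_U_pm hr hr2 hr7 with h | h
    · refine ⟨(r + 1) / 2, by omega, by omega, ?_⟩
      have : 2 * ((r + 1) / 2) = r + 1 := by omega
      rwa [this]
    · refine ⟨(r - 1) / 2, by omega, by omega, ?_⟩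
      have : 2 * ((r - 1) / 2) = r - 1 := by omega
      rwa [this]
  have hex2 : ∃ k, 1 ≤ k ∧ (r : ℤ) ∣ U (2 * k) := by
    obtain ⟨k, h1, -, h3⟩ := hex
    exact ⟨k, h1, h3⟩
  obtain ⟨hρ1, hρ⟩ := Nat.find_spec hex2
  refine ⟨Nat.find hex2, ?_, ?_, ?_⟩
  · rcases Nat.lt_or_ge 1 (Nat.find hex2) with h | h
    · exact h
    · exfalso
      have h1 : Nat.find hex2 = 1 := by omega
      rw [h1] at hρ
      have h2 : U (2 * 1) = 1 := by decide
      rw [h2] at hρ
      have h3 : (r : ℤ) ∣ ((1 : ℕ) : ℤ) := by exact_mod_cast hρ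
      have := Int.natCast_dvd_natCast.1 h3
      exact hr.one_lt.ne' (Nat.dvd_one.1 this)
  · obtain ⟨k, h1, h2, h3⟩ := hex
    have := Nat.find_min' hex2 ⟨h1, h3⟩
    omega
  · intro e
    constructor
    · intro he
      have h1 := dvd_U_gcd hr hr2 _ _ hρ he
      rw [Nat.gcd_mul_left] at h1
      rcases Nat.eq_zero_or_pos e with h0 | h0
      · rw [h0]; exact dvd_zero _
      · have h2 : 1 ≤ Nat.gcd (Nat.find hex2) e := Nat.gcd_pos_of_pos_right _ h0
        have h3 := Nat.find_min' hex2 ⟨h2, h1⟩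
        have h4 : Nat.gcd (Nat.find hex2) e = Nat.find hex2 :=
          le_antisymm (Nat.le_of_dvd hρ1 (Nat.gcd_dvd_left _ _)) h3
        rw [← h4]
        exact Nat.gcd_dvd_right _ _
    · rintro ⟨k, rfl⟩
      have := dvd_U_mul hr hr2 hρ k
      rwa [mul_assoc] at this

/-- the quotient sequence `U (m k) / U m` -/
lemma S_seq (m k : ℕ) : ∃ S S' c c' : ℤ, U (m * k) = U m * S ∧ U (m * (k + 1)) = U m * S' ∧
    2 ^ k * S = 2 * (k * V m ^ (k - 1) + U m ^ 2 * c) ∧
    2 ^ k * S' = (k + 1) * V m ^ k + U m ^ 2 * c' := by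
  induction k with
  | zero => exact ⟨0, 1, 0, 0, by simp [U], by simp, by simp, by simp⟩
  | succ k ih =>
    obtain ⟨S, S', c, c', h1, h2, h3, h4⟩ := ih
    refine ⟨S', V m * S' - 2 ^ m * S, c', 2 * V m * c' - V m ^ 2 * c - 7 * (U m ^ 2 * c) -
      7 * (k * V m ^ (k - 1)), h2, ?_, ?_, ?_⟩
    · have h5 := U_step_d (m * k) m
      have e1 : m * k + 2 * m = m * (k + 1 + 1) := by ring
      have e2 : m * k + m = m * (k + 1) := by ring
      rw [e1, e2, h1, h2] at h5
      rw [h5]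
      ring
    · rw [pow_succ]
      simp only [Nat.add_sub_cancel]
      push_cast
      linear_combination 2 * h4
    · have h5 := UV_norm m
      rw [pow_succ (2 : ℤ) k]
      push_cast
      have h6 : (k : ℤ) * V m ^ (k - 1) * V m = k * V m ^ k := by
        rcases k with _ | k
        · simp
        · rw [mul_assoc, ← pow_succ]
          simp
      have h7 : (2 : ℤ) ^ k * 2 * (V m * S' - 2 ^ m * S) =
          2 * V m * (2 ^ k * S') - 2 * 2 ^ m * (2 ^ k * S) := by ring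
      rw [h7, h3, h4, pow_succ (V m) k]
      have h8 : (4 : ℤ) * 2 ^ m = V m ^ 2 + 7 * U m ^ 2 := h5.symm
      have h9 : 2 * V m * ((k + 1) * V m ^ k + U m ^ 2 * c') -
          2 * 2 ^ m * (2 * (k * V m ^ (k - 1) + U m ^ 2 * c)) =
          2 * V m * ((k + 1) * V m ^ k + U m ^ 2 * c') -
          (V m ^ 2 + 7 * U m ^ 2) * (k * V m ^ (k - 1) + U m ^ 2 * c) := by
        rw [← h8]; ring
      rw [h9]
      linear_combination (-V m) * h6

end Vale.Agent.P027.R2.H955
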