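import Vale.Agent.P027.R2.H18.LucasMod

set_option linter.all false

/-!
Norms from `ℚ(√2)`, valuations at the primes `3, 5` modulo `8`, rank of apparition and lifting the
exponent for the Lucas numbers of `(1 + √-7) / 2`.
-/

namespace Vale.Agent.P027.T2

/-- norm from `ℚ(√2)` -/
def N2 (x : ℚ) : Prop := ∃ a b : ℚ, x = a ^ 2 - 2 * b ^ 2

end Vale.Agent.P027.T2

namespace Vale.Agent.P027.R2.H955

open Vale.Agent.P027.T2

lemma n2_mul {x y : ℚ} (hx : N2 x) (hy : N2 y) : N2 (x * y) := by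
  obtain ⟨a, b, rfl⟩ := hx
  obtain ⟨c, d, rfl⟩ := hy
  exact ⟨a * c + 2 * (b * d), a * d + b * c, by ring⟩

lemma n2_one : N2 1 := ⟨1, 0, by norm_num⟩

lemma n2_neg_one : N2 (-1) := ⟨1, 1, by norm_num⟩

lemma n2_neg {x : ℚ} (hx : N2 x) : N2 (-x) := by
  have := n2_mul n2_neg_one hx
  rwa [neg_one_mul] at this

lemma n2_prod {ι : Type*} (s : Finset ι) (f : ι → ℚ) (h : ∀ i ∈ s, N2 (f i)) :
    N2 (∏ i ∈ s, f i) := by
  classical
  induction s using Finset.induction_on with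
  | empty => simpa using n2_one
  | insert a s ha ih =>
    rw [Finset.prod_insert ha]
    exact n2_mul (h a (by simp)) (ih fun i hi => h i (by simp [hi]))

/-! ### valuations -/

section val

variable {r : ℕ}

lemma two_not_square (hr : r.Prime) (h8 : r % 8 = 3 ∨ r % 8 = 5) : ¬ IsSquare (2 : ZMod r) := by
  have : Fact r.Prime := ⟨hr⟩
  rw [ZMod.exists_sq_eq_two_iff (by omega)]
  omega

lemma not_dvd_norm (hr : r.Prime) (h8 : r % 8 = 3 ∨ r % 8 = 5) {a b : ℤ}
    (hab : IsCoprime a b) : ¬ (r : ℤ) ∣ a ^ 2 - 2 * b ^ 2 := by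
  have : Fact r.Prime := ⟨hr⟩
  intro h
  have h1 : ((a ^ 2 - 2 * b ^ 2 : ℤ) : ZMod r) = 0 := (ZMod.intCast_zmod_eq_zero_iff_dvd _ _).2 h
  push_cast at h1
  by_cases hb : (b : ZMod r) = 0
  · rw [hb] at h1
    have ha : (a : ZMod r) = 0 := by
      have : (a : ZMod r) ^ 2 = 0 := by linear_combination h1
      exact pow_eq_zero_iff (two_ne_zero) |>.1 this
    obtain ⟨x, y, hxy⟩ := hab
    have h2 : ((x * a + y * b : ℤ) : ZMod r) = 1 := by rw [hxy]; simp
    push_cast at h2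
    rw [ha, hb] at h2
    simp at h2
  · apply two_not_square hr h8
    refine ⟨(a : ZMod r) / b, ?_⟩
    field_simp
    linear_combination -h1

lemma even_val_norm (hr : r.Prime) (h8 : r % 8 = 3 ∨ r % 8 = 5) (a b : ℤ) :
    Even (padicValRat r ((a : ℚ) ^ 2 - 2 * (b : ℚ) ^ 2)) := by
  have : Fact r.Prime := ⟨hr⟩
  by_cases h0 : a = 0 ∧ b = 0
  · rw [h0.1, h0.2]
    simp
  · have hg : (Int.gcd a b : ℤ) ≠ 0 := by
      intro h
      have : Int.gcd a b = 0 := by exact_mod_cast h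
      exact h0 (Int.gcd_eq_zero_iff.1 this)
    have hgpos : 0 < Int.gcd a b := Nat.pos_of_ne_zero (by exact_mod_cast hg)
    obtain ⟨a', b', hgcd, ha, hb⟩ := Int.exists_gcd_one hgpos
    have hco : IsCoprime a' b' := Int.isCoprime_iff_gcd_eq_one.2 hgcd
    have hnd := not_dvd_norm hr h8 hco
    have hne : (a' ^ 2 - 2 * b' ^ 2 : ℤ) ≠ 0 := by
      intro h
      rw [h] at hnd
      exact hnd (dvd_zero _)
    have e : (a : ℚ) ^ 2 - 2 * (b : ℚ) ^ 2 =
        ((Int.gcd a b : ℤ) : ℚ) ^ 2 * ((a' ^ 2 - 2 * b' ^ 2 : ℤ) : ℚ) := by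
      have ha' : (a : ℚ) = a' * ((Int.gcd a b : ℤ) : ℚ) := by exact_mod_cast ha
      have hb' : (b : ℚ) = b' * ((Int.gcd a b : ℤ) : ℚ) := by exact_mod_cast hb
      generalize ((Int.gcd a b : ℤ) : ℚ) = g at ha' hb' ⊢
      rw [ha', hb']
      push_cast
      ring
    have hg' : ((Int.gcd a b : ℤ) : ℚ) ≠ 0 := by exact_mod_cast hg
    have hne' : ((a' ^ 2 - 2 * b' ^ 2 : ℤ) : ℚ) ≠ 0 := by exact_mod_cast hne
    rw [e, padicValRat.mul (pow_ne_zero 2 hg') hne', padicValRat.pow, padicValRat.of_int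
      (z := a' ^ 2 - 2 * b' ^ 2), padicValInt.eq_zero_of_not_dvd hnd]
    simp

lemma even_of_N2 (hr : r.Prime) (h8 : r % 8 = 3 ∨ r % 8 = 5) {x : ℚ} (hx : N2 x) :
    Even (padicValRat r x) := by
  have : Fact r.Prime := ⟨hr⟩
  by_cases hx0 : x = 0
  · rw [hx0]; simp
  obtain ⟨a, b, h⟩ := hx
  have had : (a.den : ℚ) ≠ 0 := by exact_mod_cast a.den_ne_zero
  have hbd : (b.den : ℚ) ≠ 0 := by exact_mod_cast b.den_ne_zero
  have h1 : (a : ℚ) * a.den = a.num := Rat.mul_den_eq_num a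
  have h2 : (b : ℚ) * b.den = b.num := Rat.mul_den_eq_num b
  have key : x * ((a.den : ℚ) * b.den) ^ 2 =
      ((a.num * b.den : ℤ) : ℚ) ^ 2 - 2 * ((b.num * a.den : ℤ) : ℚ) ^ 2 := by
    push_cast
    rw [← h1, ← h2, h]
    ring
  have h3 := even_val_norm hr h8 (a.num * b.den) (b.num * a.den)
  rw [← key, padicValRat.mul hx0 (pow_ne_zero 2 (mul_ne_zero had hbd)), padicValRat.pow] at h3
  obtain ⟨c, hc⟩ := h3
  refine ⟨c - padicValRat r ((a.den : ℚ) * b.den), ?_⟩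
  push_cast at hc
  linarith

/-- odd valuation at a prime `3` or `5` modulo `8` excludes norms -/
lemma not_N2_of_odd (hr : r.Prime) (h8 : r % 8 = 3 ∨ r % 8 = 5) {m n : ℤ} (hm : m ≠ 0)
    (hn : n ≠ 0) (hodd : Odd (padicValNat r m.natAbs + padicValNat r n.natAbs)) :
    ¬ N2 ((m : ℚ) / n) := by
  have : Fact r.Prime := ⟨hr⟩
  intro h
  have h1 := even_of_N2 hr h8 h
  have hm' : (m : ℚ) ≠ 0 := by exact_mod_cast hm
  have hn' : (n : ℚ) ≠ 0 := by exact_mod_cast hn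
  rw [padicValRat.div hm' hn', padicValRat.of_int, padicValRat.of_int] at h1
  unfold padicValInt at h1
  obtain ⟨c, hc⟩ := h1
  obtain ⟨d, hd⟩ := hodd
  omega

end val

/-- a number with `χ₈ = -1` has a prime `3, 5` modulo `8` with odd valuation -/
lemma exists_prime_eight {n : ℕ} (hn : ZMod.χ₈ (n : ZMod 8) = -1) :
    ∃ r : ℕ, r.Prime ∧ (r % 8 = 3 ∨ r % 8 = 5) ∧ Odd (padicValNat r n) := by
  by_contra hcon
  push Not at hcon
  have h0 : n ≠ 0 := by
    rintro rfl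
    simp at hn
  have h1 : ZMod.χ₈ (n : ZMod 8) = n.factorization.prod fun p k => ZMod.χ₈ (p : ZMod 8) ^ k := by
    conv_lhs => rw [← Nat.factorization_prod_pow_eq_self h0]
    rw [Finsupp.prod, Finsupp.prod, Nat.cast_prod, map_prod]
    refine Finset.prod_congr rfl fun p _ => ?_
    rw [Nat.cast_pow, map_pow]
  have hodd : ¬ 2 ∣ n := by
    intro h
    rw [ZMod.χ₈_nat_eq_if_mod_eight, if_pos (Nat.mod_eq_zero_of_dvd h)] at hn
    norm_num at hn
  have h2 : ZMod.χ₈ (n : ZMod 8) = 1 := by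
    rw [h1]
    apply Finset.prod_eq_one
    intro p hp
    have hpp : p.Prime := Nat.prime_of_mem_primeFactors hp
    have hpn : p ∣ n := Nat.dvd_of_mem_primeFactors hp
    have hp2 : p % 2 = 1 := by
      rcases hpp.eq_two_or_odd with h | h
      · exact absurd (h ▸ hpn) hodd
      · exact h
    change ZMod.χ₈ (p : ZMod 8) ^ (n.factorization p) = 1
    rw [ZMod.χ₈_nat_eq_if_mod_eight, if_neg (by omega)]
    by_cases h : p % 8 = 1 ∨ p % 8 = 7
    · rw [if_pos h, one_pow]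
    · rw [if_neg h]
      have h3 : Even (n.factorization p) := by
        rw [Nat.factorization_def _ hpp]
        exact Nat.not_odd_iff_even.1 (hcon p hpp (by omega))
      exact h3.neg_one_pow
  rw [h2] at hn
  norm_num at hn

end Vale.Agent.P027.R2.H955
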