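import Mathlib

set_option linter.all false

/-!
Integer valued valuations of a number field at the maximal ideals of its ring of integers.
-/

namespace Vale.Agent.P027.R2.H955

open IsDedekindDomain NumberField nonZeroDivisors

section vv

variable {K : Type*} [Field K] [NumberField K]

/-- the valuation at `P`, with integer values (`0` at `0`) -/
noncomputable def vv (P : HeightOneSpectrum (𝓞 K)) (x : K) : ℤ :=
  - WithZero.log (P.valuation K x)

variable (P : HeightOneSpectrum (𝓞 K))

lemma val_ne_zero {x : K} (hx : x ≠ 0) : P.valuation K x ≠ 0 :=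
  (Valuation.ne_zero_iff _).2 hx

lemma vv_mul {x y : K} (hx : x ≠ 0) (hy : y ≠ 0) : vv P (x * y) = vv P x + vv P y := by
  unfold vv
  rw [map_mul, WithZero.log_mul (val_ne_zero P hx) (val_ne_zero P hy)]
  ring

@[simp] lemma vv_zero : vv P (0 : K) = 0 := by
  unfold vv
  rw [map_zero, WithZero.log_zero, neg_zero]

@[simp] lemma vv_one : vv P (1 : K) = 0 := by
  unfold vv
  rw [map_one, WithZero.log_one, neg_zero]

lemma vv_inv (x : K) : vv P x⁻¹ = - vv P x := by
  unfold vv
  rw [map_inv₀, WithZero.log_inv]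

lemma vv_div {x y : K} (hx : x ≠ 0) (hy : y ≠ 0) : vv P (x / y) = vv P x - vv P y := by
  rw [div_eq_mul_inv, vv_mul P hx (inv_ne_zero hy), vv_inv]
  ring

lemma vv_pow (x : K) (n : ℕ) : vv P (x ^ n) = n * vv P x := by
  unfold vv
  rw [map_pow, WithZero.log_pow]
  simp

lemma vv_zpow (x : K) (n : ℤ) : vv P (x ^ n) = n * vv P x := by
  unfold vv
  rw [map_zpow₀, WithZero.log_zpow]
  simp

lemma vv_neg (x : K) : vv P (-x) = vv P x := by
  unfold vv
  rw [Valuation.map_neg]

lemma vv_prod {ι : Type*} (s : Finset ι) (f : ι → K) (hf : ∀ i ∈ s, f i ≠ 0) :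
    vv P (∏ i ∈ s, f i) = ∑ i ∈ s, vv P (f i) := by
  classical
  induction s using Finset.induction_on with
  | empty => simp
  | insert a s ha ih =>
    rw [Finset.prod_insert ha, Finset.sum_insert ha, vv_mul P (hf a (by simp))
      (Finset.prod_ne_zero_iff.2 fun i hi => hf i (by simp [hi])),
      ih fun i hi => hf i (by simp [hi])]

lemma vv_le_iff {x y : K} (hx : x ≠ 0) (hy : y ≠ 0) :
    vv P x ≤ vv P y ↔ P.valuation K y ≤ P.valuation K x := by
  unfold vv
  rw [neg_le_neg_iff, WithZero.log_le_log (val_ne_zero P hy) (val_ne_zero P hx)]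

lemma vv_nonneg_iff (x : K) : 0 ≤ vv P x ↔ P.valuation K x ≤ 1 := by
  by_cases hx : x = 0
  · simp [hx]
  · rw [← vv_one P, vv_le_iff P one_ne_zero hx, map_one]

lemma vv_pos_iff {x : K} (hx : x ≠ 0) : 0 < vv P x ↔ P.valuation K x < 1 := by
  rw [← not_le, ← not_le, ← vv_one P, vv_le_iff P hx one_ne_zero, map_one]

/-- the ultrametric inequality -/
lemma vv_add {x y : K} (hx : x ≠ 0) (hy : y ≠ 0) (hxy : x + y ≠ 0) :
    min (vv P x) (vv P y) ≤ vv P (x + y) := by
  rcases le_total (P.valuation K x) (P.valuation K y) with h | h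
  · apply (min_le_right _ _).trans
    rw [vv_le_iff P hy hxy]
    exact (Valuation.map_add _ _ _).trans (max_le h le_rfl)
  · apply (min_le_left _ _).trans
    rw [vv_le_iff P hx hxy]
    exact (Valuation.map_add _ _ _).trans (max_le le_rfl h)

lemma vv_int_nonneg (a : 𝓞 K) : 0 ≤ vv P (a : K) := by
  rw [vv_nonneg_iff]
  exact P.valuation_le_one a

lemma vv_int_pos_iff {a : 𝓞 K} (ha : a ≠ 0) : 0 < vv P (a : K) ↔ a ∈ P.asIdeal := by
  have ha' : (a : K) ≠ 0 := by simpa using ha
  rw [vv_pos_iff P ha']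
  exact P.valuation_lt_one_iff_mem a

lemma exists_int_div (x : K) : ∃ a b : 𝓞 K, b ≠ 0 ∧ x = (a : K) / b := by
  obtain ⟨a, b, hb, h⟩ := IsFractionRing.div_surjective (A := 𝓞 K) x
  exact ⟨a, b, nonZeroDivisors.ne_zero hb, h.symm⟩

/-- comparison with the exponent in the factorization of a fractional ideal -/
lemma vv_eq_count {x : K} (hx : x ≠ 0) :
    vv P x = FractionalIdeal.count K P (FractionalIdeal.spanSingleton (𝓞 K)⁰ x) := by
  classical
  have hint : ∀ a : 𝓞 K, a ≠ 0 → vv P (a : K) =
      FractionalIdeal.count K P (FractionalIdeal.spanSingleton (𝓞 K)⁰ (a : K)) := by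
    intro a ha
    have h1 : FractionalIdeal.spanSingleton (𝓞 K)⁰ (a : K) =
        ((Ideal.span {a} : Ideal (𝓞 K)) : FractionalIdeal (𝓞 K)⁰ K) := by
      rw [FractionalIdeal.coeIdeal_span_singleton]
    rw [h1, FractionalIdeal.count_coe K P (by simpa using ha)]
    unfold vv
    rw [show P.valuation K (a : K) = P.intValuation a from P.valuation_of_algebraMap a,
      P.intValuation_if_neg ha, WithZero.log_exp, neg_neg]
  obtain ⟨a, b, hb, rfl⟩ := exists_int_div x
  have ha : a ≠ 0 := by
    rintro rfl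
    simp at hx
  have ha' : (a : K) ≠ 0 := by simpa using ha
  have hb' : (b : K) ≠ 0 := by simpa using hb
  rw [vv_div P ha' hb', hint a ha, hint b hb, div_eq_mul_inv,
    ← FractionalIdeal.spanSingleton_mul_spanSingleton,
    FractionalIdeal.count_mul K P (FractionalIdeal.spanSingleton_ne_zero_iff.2 ha')
      (FractionalIdeal.spanSingleton_ne_zero_iff.2 (inv_ne_zero hb')),
    ← FractionalIdeal.spanSingleton_inv, FractionalIdeal.count_inv]
  ring

lemma vv_eq_multiplicity {a : 𝓞 K} (ha : a ≠ 0) :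
    vv P (a : K) = multiplicity P.asIdeal (Ideal.span {a}) := by
  unfold vv
  rw [show P.valuation K (a : K) = P.intValuation a from P.valuation_of_algebraMap a,
    P.intValuation_eq_exp_neg_multiplicity ha, WithZero.log_exp, neg_neg]

end vv

end Vale.Agent.P027.R2.H955
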