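import Vale.Agent.P027.R2.H955.NormTest

set_option linter.all false

/-!
One embedding into `ℚ_p` sees all places above `p` of a Galois number field; the norm of an element
passing the local divisibility conditions is `1` modulo `p ^ e`.
-/

namespace Vale.Agent.P027.R2.H955

open IsDedekindDomain NumberField nonZeroDivisors Polynomial

section emb

variable {K : Type*} [Field K] [NumberField K] {p : ℕ} [hp : Fact p.Prime]

lemma padic_norm_le_one (φ : K →+* ℚ_[p]) (y : 𝓞 K) : ‖φ (y : K)‖ ≤ 1 := by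
  have h1 : IsIntegral ℤ (φ (y : K)) := by
    have h2 : IsIntegral ℤ (y : K) := NumberField.RingOfIntegers.isIntegral_coe y
    exact h2.map (φ.toIntAlgHom)
  have h3 : IsIntegral ℤ_[p] (φ (y : K)) := h1.tower_top
  obtain ⟨z, hz⟩ := IsIntegrallyClosed.isIntegral_iff.1 h3
  rw [← hz]
  exact PadicInt.norm_le_one z

/-- the prime ideal cut out by an embedding into `ℚ_p` -/
def padicIdeal (φ : K →+* ℚ_[p]) : Ideal (𝓞 K) where
  carrier := {y | ‖φ (y : K)‖ < 1}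
  zero_mem' := by simp
  add_mem' := by
    intro a b ha hb
    simp only [Set.mem_setOf_eq, map_add] at *
    exact lt_of_le_of_lt (Padic.nonarchimedean _ _) (max_lt ha hb)
  smul_mem' := by
    intro a b hb
    simp only [Set.mem_setOf_eq, smul_eq_mul, map_mul, norm_mul] at *
    exact lt_of_le_of_lt (mul_le_of_le_one_left (norm_nonneg _) (padic_norm_le_one φ a)) hb

lemma mem_padicIdeal {φ : K →+* ℚ_[p]} {y : 𝓞 K} : y ∈ padicIdeal φ ↔ ‖φ (y : K)‖ < 1 := Iff.rfl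

instance padicIdeal_prime (φ : K →+* ℚ_[p]) : (padicIdeal φ).IsPrime := by
  refine ⟨?_, ?_⟩
  · rw [Ideal.ne_top_iff_one, mem_padicIdeal]
    simp
  · intro a b hab
    rw [mem_padicIdeal] at *
    by_contra hcon
    push Not at hcon
    obtain ⟨h1, h2⟩ := hcon
    rw [mem_padicIdeal, not_lt] at h2
    simp only [map_mul, norm_mul] at hab
    nlinarith

/-- a prime above `p` is cut out by one of the conjugate embeddings -/
lemma exists_padicIdeal [IsGalois ℚ K] (φ : K →+* ℚ_[p]) (P : HeightOneSpectrum (𝓞 K))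
    (hP : (p : 𝓞 K) ∈ P.asIdeal) :
    ∃ τ : K ≃ₐ[ℚ] K, P.asIdeal = padicIdeal (φ.comp (τ : K →+* K)) := by
  classical
  have hPm : P.asIdeal.IsMaximal := P.isMaximal
  suffices h : ∃ τ ∈ (Finset.univ : Finset (K ≃ₐ[ℚ] K)),
      P.asIdeal ≤ padicIdeal (φ.comp (τ : K →+* K)) by
    obtain ⟨τ, -, hτ⟩ := h
    exact ⟨τ, hPm.eq_of_le (padicIdeal_prime _).ne_top hτ⟩
  rw [← Ideal.subset_union_prime (AlgEquiv.refl : K ≃ₐ[ℚ] K) (AlgEquiv.refl : K ≃ₐ[ℚ] K)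
    (fun τ _ _ _ => padicIdeal_prime _)]
  intro y hy
  by_contra hcon
  simp only [Set.mem_iUnion, SetLike.mem_coe, Finset.coe_univ, Set.mem_univ, exists_prop,
    true_and, not_exists] at hcon
  -- the norm of `y`
  have h1 : ∀ τ : K ≃ₐ[ℚ] K, ‖φ (τ (y : K))‖ = 1 := by
    intro τ
    have h2 := hcon τ
    rw [mem_padicIdeal, not_lt] at h2
    exact le_antisymm (padic_norm_le_one (φ.comp (τ : K →+* K)) y) h2
  have h3 : ((Algebra.norm ℤ y : ℤ) : K) = ∏ τ : K ≃ₐ[ℚ] K, τ (y : K) := by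
    rw [← Algebra.norm_eq_prod_automorphisms ℚ (y : K)]
    have := Algebra.coe_norm_int y
    rw [← this]
    simp
  have h4 : ‖((Algebra.norm ℤ y : ℤ) : ℚ_[p])‖ = 1 := by
    have := congrArg φ h3
    rw [map_intCast, map_prod] at this
    rw [this, norm_prod]
    exact Finset.prod_eq_one fun τ _ => h1 τ
  have h5 : ((Algebra.norm ℤ y : ℤ) : 𝓞 K) ∈ P.asIdeal := by
    have h6 : ((Ideal.absNorm (Ideal.span {y}) : ℕ) : 𝓞 K) ∈ Ideal.span {y} :=
      Ideal.absNorm_mem _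
    have h7 : ((Ideal.absNorm (Ideal.span {y}) : ℕ) : 𝓞 K) ∈ P.asIdeal :=
      ((Ideal.span_singleton_le_iff_mem _).2 hy) h6
    rw [Ideal.absNorm_span_singleton] at h7
    rcases Int.natAbs_eq (Algebra.norm ℤ y) with h | h
    · rw [h]
      simpa using h7
    · rw [h]
      simpa using h7
  have h6 : ¬ (p : ℤ) ∣ Algebra.norm ℤ y := by
    intro h
    have := (Padic.norm_intCast_lt_one_iff (p := p) (k := Algebra.norm ℤ y)).2 h
    rw [h4] at this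
    exact lt_irrefl _ this
  have h7 : IsCoprime (p : ℤ) (Algebra.norm ℤ y) :=
    ((Nat.prime_iff_prime_int.1 hp.out).coprime_iff_not_dvd).2 h6
  obtain ⟨u, v, huv⟩ := h7
  apply hPm.ne_top
  rw [Ideal.eq_top_iff_one]
  have h8 : (1 : 𝓞 K) = (u : 𝓞 K) * ((p : ℤ) : 𝓞 K) + (v : 𝓞 K) * ((Algebra.norm ℤ y : ℤ) : 𝓞 K) := by
    exact_mod_cast congrArg (fun z : ℤ => (z : 𝓞 K)) huv.symm
  rw [h8]
  refine P.asIdeal.add_mem (P.asIdeal.mul_mem_left _ ?_) (P.asIdeal.mul_mem_left _ h5)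
  simpa using hP

lemma norm_lt_one_of_vv_pos {φ : K →+* ℚ_[p]} {P : HeightOneSpectrum (𝓞 K)}
    (hP : P.asIdeal = padicIdeal φ) {x : K} (hx : x ≠ 0) (h : 0 < vv P x) : ‖φ x‖ < 1 := by
  have h1 : P.valuation K x ≤ 1 := (vv_nonneg_iff P x).1 h.le
  obtain ⟨n, d, hnd⟩ := P.exists_primeCompl_mul_eq_of_integer x h1
  have hd : (d : 𝓞 K) ∉ P.asIdeal := d.2
  have hd0 : (d : 𝓞 K) ≠ 0 := by
    intro h0
    apply hd
    rw [h0]
    exact P.asIdeal.zero_mem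
  have hd0' : ((d : 𝓞 K) : K) ≠ 0 := by simpa using hd0
  have hnd' : x * ((d : 𝓞 K) : K) = (n : K) := hnd
  have hn0 : n ≠ 0 := by
    rintro rfl
    have : x * ((d : 𝓞 K) : K) = 0 := by rw [hnd']; simp
    exact (mul_ne_zero hx hd0') this
  have hvd : vv P ((d : 𝓞 K) : K) = 0 := by
    have h2 := vv_int_nonneg P (d : 𝓞 K)
    have h3 := (vv_int_pos_iff P hd0).not.2 hd
    omega
  have hn : n ∈ P.asIdeal := by
    rw [← vv_int_pos_iff P hn0, ← hnd', vv_mul P hx hd0', hvd]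
    omega
  have hd' : (d : 𝓞 K) ∉ padicIdeal φ := by rw [← hP]; exact hd
  rw [hP, mem_padicIdeal] at hn
  rw [mem_padicIdeal] at hd'
  have hd1 : ‖φ ((d : 𝓞 K) : K)‖ = 1 := le_antisymm (padic_norm_le_one φ _) (not_lt.1 hd')
  rw [← hnd', map_mul, norm_mul, hd1, mul_one] at hn
  exact hn

/-- valuations above `p` vanish if all conjugates are units of `ℤ_p` -/
theorem vv_eq_zero_of_padic [IsGalois ℚ K] (φ : K →+* ℚ_[p]) {x : K} (hx : x ≠ 0)
    (h : ∀ τ : K ≃ₐ[ℚ] K, ‖φ (τ x)‖ = 1) (P : HeightOneSpectrum (𝓞 K))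
    (hP : (p : 𝓞 K) ∈ P.asIdeal) : vv P x = 0 := by
  obtain ⟨τ, hτ⟩ := exists_padicIdeal φ P hP
  by_contra hne
  rcases lt_or_gt_of_ne hne with h1 | h1
  · have h2 : 0 < vv P x⁻¹ := by rw [vv_inv]; omega
    have h3 := norm_lt_one_of_vv_pos hτ (inv_ne_zero hx) h2
    have h4 : (φ.comp (τ : K →+* K)) x⁻¹ = (φ (τ x))⁻¹ := by
      simp
    rw [h4, norm_inv, h τ] at h3
    norm_num at h3
  · have h3 := norm_lt_one_of_vv_pos hτ hx h1
    have h4 : (φ.comp (τ : K →+* K)) x = φ (τ x) := rfl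
    rw [h4, h τ] at h3
    exact lt_irrefl _ h3

lemma OneMod.padic {e : ℕ} {z : ℚ} (hz : OneMod (p ^ e) z) (he : 1 ≤ e) :
    ‖(z : ℚ_[p]) - 1‖ ≤ (p : ℝ) ^ (-(e : ℤ)) := by
  obtain ⟨a, b, ha0, hb0, ha, hb, hab, rfl⟩ := hz
  have hpb : ¬ p ∣ b := by
    intro h
    have h1 : p ∣ Nat.gcd b (p ^ e) := Nat.dvd_gcd h (dvd_pow_self p (by omega))
    rw [Nat.coprime_iff_gcd_eq_one.1 hb] at h1
    exact hp.out.one_lt.ne' (Nat.dvd_one.1 h1)
  have hb1 : ‖(b : ℚ_[p])‖ = 1 := by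
    have h1 : ¬ ‖((b : ℤ) : ℚ_[p])‖ < 1 := by
      rw [Padic.norm_intCast_lt_one_iff]
      exact_mod_cast hpb
    have h2 := Padic.norm_int_le_one (p := p) (b : ℤ)
    push_cast at h1 h2
    exact le_antisymm h2 (not_lt.1 h1)
  have hb0' : (b : ℚ_[p]) ≠ 0 := by
    intro h
    rw [h, norm_zero] at hb1
    exact zero_ne_one hb1
  have h2 : (((a : ℚ) / b : ℚ) : ℚ_[p]) - 1 = (((a : ℤ) - b : ℤ) : ℚ_[p]) / b := by
    push_cast
    field_simp
  rw [h2, norm_div, hb1, div_one]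
  rw [Padic.norm_int_le_pow_iff_dvd]
  have h3 : ((a : ℤ) : ZMod (p ^ e)) = ((b : ℤ) : ZMod (p ^ e)) := by exact_mod_cast hab
  have h4 := (ZMod.intCast_eq_intCast_iff_dvd_sub _ _ _).1 h3.symm
  exact_mod_cast h4

end emb

section cyc

variable {K : Type*} [Field K] [NumberField K]

lemma norm_eq_prod_range [IsGalois ℚ K] {σ : K ≃ₐ[ℚ] K} {n : ℕ}
    (hσ : Function.Bijective (fun i : Fin n => σ ^ (i : ℕ))) (x : K) :
    ((Algebra.norm ℚ x : ℚ) : K) = ∏ i ∈ Finset.range n, (σ ^ i) x := by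
  classical
  have h1 := Algebra.norm_eq_prod_automorphisms ℚ x
  have h2 : ∏ τ : K ≃ₐ[ℚ] K, τ x = ∏ i : Fin n, (σ ^ (i : ℕ)) x :=
    (Fintype.prod_bijective (fun i : Fin n => σ ^ (i : ℕ)) hσ _ _ fun i => rfl).symm
  rw [Finset.prod_range (fun i => (σ ^ i) x), ← h2, ← h1]
  simp

/-- norms from a CM field are positive -/
lemma norm_pos_of_conj [IsGalois ℚ K] {σ : K ≃ₐ[ℚ] K} {m : ℕ}
    (hσ : Function.Bijective (fun i : Fin (2 * m) => σ ^ (i : ℕ))) (ψ : K →+* ℂ)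
    (hψ : ∀ x, ψ ((σ ^ m) x) = (starRingEnd ℂ) (ψ x)) {x : K} (hx : x ≠ 0) :
    0 < Algebra.norm ℚ x := by
  have h1 := congrArg ψ (norm_eq_prod_range hσ x)
  rw [two_mul, Finset.prod_range_add, map_mul, map_prod, map_prod, ← Finset.prod_mul_distrib] at h1
  have h2 : ∀ i ∈ Finset.range m, ψ ((σ ^ i) x) * ψ ((σ ^ (m + i)) x) =
      ((Complex.normSq (ψ ((σ ^ i) x)) : ℝ) : ℂ) := by
    intro i _
    rw [pow_add, AlgEquiv.mul_apply, hψ, Complex.mul_conj]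
  rw [Finset.prod_congr rfl h2, map_ratCast, ← Complex.ofReal_prod] at h1
  have h3 : ((Algebra.norm ℚ x : ℚ) : ℝ) = ∏ i ∈ Finset.range m, Complex.normSq (ψ ((σ ^ i) x)) := by
    have h4 : (((Algebra.norm ℚ x : ℚ) : ℝ) : ℂ) = ((Algebra.norm ℚ x : ℚ) : ℂ) := by push_cast; rfl
    rw [← h4] at h1
    exact Complex.ofReal_injective h1
  have h5 : 0 < ∏ i ∈ Finset.range m, Complex.normSq (ψ ((σ ^ i) x)) := by
    apply Finset.prod_pos
    intro i _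
    rw [Complex.normSq_pos]
    intro h
    have h6 : (σ ^ i) x = 0 := ψ.injective (by rw [h, map_zero])
    exact hx ((σ ^ i).injective (by rw [h6, map_zero]))
  rw [← h3] at h5
  exact_mod_cast h5

/-- the norm test in `p`-adic form -/
theorem padic_test [IsGalois ℚ K] {p e m : ℕ} [hp : Fact p.Prime] (he : 1 ≤ e) {σ : K ≃ₐ[ℚ] K}
    (hσ : Function.Bijective (fun i : Fin (2 * m) => σ ^ (i : ℕ))) (ψ : K →+* ℂ)
    (hψ : ∀ x, ψ ((σ ^ m) x) = (starRingEnd ℂ) (ψ x)) (φ : K →+* ℚ_[p]) {x : K} (hx : x ≠ 0)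
    (h1 : ∀ i < 2 * m, ‖φ ((σ ^ i) x)‖ = 1)
    (h2 : ∀ P : HeightOneSpectrum (𝓞 K), (p : 𝓞 K) ∉ P.asIdeal →
      ((ff (p ^ e) P : ℕ) : ℤ) ∣ vv P x) :
    ‖∏ i ∈ Finset.range (2 * m), φ ((σ ^ i) x) - 1‖ ≤ (p : ℝ) ^ (-(e : ℤ)) := by
  have h3 : ∀ τ : K ≃ₐ[ℚ] K, ‖φ (τ x)‖ = 1 := by
    intro τ
    obtain ⟨i, hi⟩ := hσ.2 τ
    rw [← hi]
    exact h1 i i.2
  have h4 := oneMod_norm (e := e) hp.out hx (vv_eq_zero_of_padic φ hx h3) h2
  rw [abs_of_pos (norm_pos_of_conj hσ ψ hψ hx)] at h4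
  have h5 := h4.padic he
  have h6 := congrArg φ (norm_eq_prod_range hσ x)
  rw [map_ratCast, map_prod] at h6
  rwa [← h6]

end cyc

end Vale.Agent.P027.R2.H955
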