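import Vale.Agent.P027.R2.H955.NFPlaces

set_option linter.all false

/-!
Norms from `K(η)`, `η` a primitive `p ^ e`-th root of unity.
-/

namespace Vale.Agent.P027.R2.H955

open IsDedekindDomain NumberField nonZeroDivisors Polynomial

section residue

variable {L : Type*} [Field L] [NumberField L]

/-- the characteristic of the residue field -/
lemma not_dvd_absNorm {p : ℕ} (hp : p.Prime) (Q : Ideal (𝓞 L)) [Q.IsMaximal]
    (hQ0 : Q ≠ ⊥) (hQ : (p : 𝓞 L) ∉ Q) : ¬ p ∣ Ideal.absNorm Q := by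
  intro h
  let := Ideal.Quotient.field Q
  have : Finite (𝓞 L ⧸ Q) := Ideal.finiteQuotientOfFreeOfNeBot Q hQ0
  have := Fintype.ofFinite (𝓞 L ⧸ Q)
  obtain ⟨c, hc⟩ := CharP.exists (𝓞 L ⧸ Q)
  obtain ⟨n, hc1, hc2⟩ := FiniteField.card (𝓞 L ⧸ Q) c
  have h1 : Ideal.absNorm Q = Fintype.card (𝓞 L ⧸ Q) := by
    rw [Ideal.absNorm_apply, Submodule.cardQuot_apply, Nat.card_eq_fintype_card]
  rw [h1, hc2] at h
  have h2 : p = c := (Nat.prime_dvd_prime_iff_eq hp hc1).1 (hp.dvd_of_dvd_pow h)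
  apply hQ
  rw [← Ideal.Quotient.eq_zero_iff_mem, map_natCast, h2]
  exact CharP.cast_eq_zero _ _

/-- a primitive `p ^ e`-th root of unity keeps its order modulo `Q` -/
lemma pow_dvd_absNorm_sub_one {p e : ℕ} (hp : p.Prime) (he : 1 ≤ e) {η : L}
    (hη : IsPrimitiveRoot η (p ^ e)) (Q : Ideal (𝓞 L)) [Q.IsMaximal] (hQ0 : Q ≠ ⊥)
    (hQ : (p : 𝓞 L) ∉ Q) : p ^ e ∣ Ideal.absNorm Q - 1 := by
  have : Fact p.Prime := ⟨hp⟩
  obtain ⟨k, rfl⟩ := Nat.exists_eq_add_of_le' he
  have : NeZero (p ^ (k + 1)) := ⟨pow_ne_zero _ hp.ne_zero⟩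
  let := Ideal.Quotient.field Q
  have : Finite (𝓞 L ⧸ Q) := Ideal.finiteQuotientOfFreeOfNeBot Q hQ0
  have := Fintype.ofFinite (𝓞 L ⧸ Q)
  have h1 : Ideal.absNorm Q = Fintype.card (𝓞 L ⧸ Q) := by
    rw [Ideal.absNorm_apply, Submodule.cardQuot_apply, Nat.card_eq_fintype_card]
  have hζ := hη.toInteger_isPrimitiveRoot
  set ζ : 𝓞 L := hη.toInteger with hζdef
  have hx1 : (Ideal.Quotient.mk Q ζ) ^ p ^ (k + 1) = 1 := by
    rw [← map_pow, hζ.pow_eq_one, map_one]
  have hx2 : ¬ (Ideal.Quotient.mk Q ζ) ^ p ^ k = 1 := by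
    intro h
    have hω : IsPrimitiveRoot (ζ ^ p ^ k) p :=
      hζ.pow (pow_pos hp.pos _) (by rw [pow_succ])
    have h2 := hω.geom_sum_eq_zero hp.one_lt
    have h3 := congrArg (Ideal.Quotient.mk Q) h2
    rw [map_sum, map_zero] at h3
    have h4 : ∀ i ∈ Finset.range p, Ideal.Quotient.mk Q ((ζ ^ p ^ k) ^ i) = 1 := by
      intro i _
      rw [map_pow, map_pow, h, one_pow]
    rw [Finset.sum_congr rfl h4] at h3
    simp only [Finset.sum_const, Finset.card_range, nsmul_eq_mul, mul_one] at h3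
    apply hQ
    rw [← Ideal.Quotient.eq_zero_iff_mem, map_natCast]
    exact h3
  have ho := orderOf_eq_prime_pow hx2 hx1
  have hx0 : Ideal.Quotient.mk Q ζ ≠ 0 := by
    intro h
    rw [h, zero_pow (pow_ne_zero _ hp.ne_zero)] at hx1
    exact zero_ne_one hx1
  rw [h1, ← ho]
  exact orderOf_dvd_of_pow_eq_one (FiniteField.pow_card_sub_one_eq_one _ hx0)

end residue

section S1

variable {K L : Type*} [Field K] [NumberField K] [Field L] [NumberField L] [Algebra K L]

/-- the local divisor of the norm test -/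
noncomputable def ff (m : ℕ) (P : HeightOneSpectrum (𝓞 K)) : ℕ :=
  orderOf ((Ideal.absNorm P.asIdeal : ℕ) : ZMod m)

open UniqueFactorizationMonoid in
lemma dvd_count_relNorm {p e : ℕ} (hp : p.Prime) (he : 1 ≤ e) {η : L}
    (hη : IsPrimitiveRoot η (p ^ e)) (P : HeightOneSpectrum (𝓞 K)) (hP : (p : 𝓞 K) ∉ P.asIdeal)
    (I : Ideal (𝓞 L)) (hI : I ≠ 0) :
    ff (p ^ e) P ∣ (normalizedFactors (Ideal.relNorm (𝓞 K) I)).count P.asIdeal := by
  classical
  revert hI
  induction I using UniqueFactorizationMonoid.induction_on_prime with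
  | h₁ => intro h; exact absurd rfl h
  | h₂ I hu =>
    intro _
    have h1 : I = ⊤ := by
      rwa [Ideal.isUnit_iff] at hu
    rw [h1, Ideal.relNorm_top, ← Ideal.one_eq_top, normalizedFactors_one]
    simp
  | h₃ I Q hI hQ ih =>
    intro _
    have hQ0 : Q ≠ ⊥ := hQ.ne_zero
    have hQp : Q.IsPrime := Ideal.isPrime_of_prime hQ
    have hQm : Q.IsMaximal := Ring.DimensionLEOne.maximalOfPrime hQ0 hQp
    have hr1 : Ideal.relNorm (𝓞 K) Q ≠ 0 := fun h => hQ0 (Ideal.relNorm_eq_bot_iff.1 h)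
    have hr2 : Ideal.relNorm (𝓞 K) I ≠ 0 := fun h => hI (Ideal.relNorm_eq_bot_iff.1 h)
    rw [map_mul, normalizedFactors_mul hr1 hr2, Multiset.count_add]
    refine dvd_add ?_ (ih hI)
    obtain ⟨s, hs⟩ := Ideal.exists_relNorm_eq_pow_of_isPrime Q (Q.under (𝓞 K))
    have hq0 : Q.under (𝓞 K) ≠ ⊥ := Ideal.under_ne_bot (𝓞 K) hQ0
    have hqp : (Q.under (𝓞 K)).IsPrime := inferInstance
    have hqprime : Prime (Q.under (𝓞 K)) := Ideal.prime_of_isPrime hq0 hqp
    rw [hs, normalizedFactors_pow, normalizedFactors_irreducible hqprime.irreducible,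
      Multiset.count_nsmul, normalize_eq, Multiset.count_singleton]
    by_cases hPq : P.asIdeal = Q.under (𝓞 K)
    · rw [if_pos hPq, mul_one]
      have hQ' : (p : 𝓞 L) ∉ Q := by
        intro h
        apply hP
        rw [hPq, Ideal.mem_comap, map_natCast]
        exact h
      have h1 := pow_dvd_absNorm_sub_one hp he hη Q hQ0 hQ'
      have h2 : Ideal.absNorm (Ideal.relNorm (𝓞 K) Q) = Ideal.absNorm Q :=
        Ideal.absNorm_relNorm _ _ _
      rw [hs, map_pow, ← hPq] at h2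
      rw [← h2] at h1
      unfold ff
      rw [orderOf_dvd_iff_pow_eq_one]
      have hpos : 1 ≤ Ideal.absNorm P.asIdeal ^ s := by
        apply Nat.one_le_pow
        exact Nat.pos_of_ne_zero fun h => P.ne_bot (Ideal.absNorm_eq_zero_iff.1 h)
      have h3 : ((Ideal.absNorm P.asIdeal ^ s - 1 : ℕ) : ZMod (p ^ e)) = 0 :=
        (ZMod.natCast_eq_zero_iff _ _).2 h1
      rw [Nat.cast_sub hpos, Nat.cast_pow, Nat.cast_one] at h3
      exact sub_eq_zero.1 h3
    · rw [if_neg hPq, mul_zero]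
      exact dvd_zero _

lemma dvd_vv_norm_int {p e : ℕ} (hp : p.Prime) (he : 1 ≤ e) {η : L}
    (hη : IsPrimitiveRoot η (p ^ e)) (P : HeightOneSpectrum (𝓞 K)) (hP : (p : 𝓞 K) ∉ P.asIdeal)
    (a : 𝓞 L) (ha : a ≠ 0) :
    ((ff (p ^ e) P : ℕ) : ℤ) ∣ vv P (Algebra.norm K (a : L)) := by
  classical
  have h1 : Algebra.norm K (a : L) = ((Algebra.intNorm (𝓞 K) (𝓞 L) a : 𝓞 K) : K) :=
    (Algebra.algebraMap_intNorm (A := 𝓞 K) (K := K) (L := L) (B := 𝓞 L) a).symm
  have h0 : Algebra.intNorm (𝓞 K) (𝓞 L) a ≠ 0 := by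
    rwa [Ne, Algebra.intNorm_eq_zero]
  have h2 : (Ideal.span {a} : Ideal (𝓞 L)) ≠ 0 := by simpa using ha
  have h3 := dvd_count_relNorm hp he hη P hP (Ideal.span {a}) h2
  rw [Ideal.relNorm_singleton, HeightOneSpectrum.count_normalizedFactors_eq_multiplicity] at h3
  · rw [h1, vv_eq_multiplicity P h0]
    exact_mod_cast h3
  · simpa using h0

/-- norms from `K(η)` have valuations divisible by `f` -/
theorem dvd_vv_norm {p e : ℕ} (hp : p.Prime) (he : 1 ≤ e) {η : L}
    (hη : IsPrimitiveRoot η (p ^ e)) (P : HeightOneSpectrum (𝓞 K)) (hP : (p : 𝓞 K) ∉ P.asIdeal)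
    (w : L) : ((ff (p ^ e) P : ℕ) : ℤ) ∣ vv P (Algebra.norm K w) := by
  by_cases hw : w = 0
  · rw [hw, Algebra.norm_zero, vv_zero]
    exact dvd_zero _
  obtain ⟨a, b, hb, rfl⟩ := exists_int_div w
  have ha : a ≠ 0 := by
    rintro rfl
    simp at hw
  have ha' : (a : L) ≠ 0 := by simpa using ha
  have hb' : (b : L) ≠ 0 := by simpa using hb
  have hd : Algebra.norm K ((a : L) / b) = Algebra.norm K (a : L) / Algebra.norm K (b : L) := by
    rw [eq_div_iff (Algebra.norm_ne_zero_iff.2 hb'), ← map_mul, div_mul_cancel₀ _ hb']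
  rw [hd, vv_div P (Algebra.norm_ne_zero_iff.2 ha') (Algebra.norm_ne_zero_iff.2 hb')]
  exact dvd_sub (dvd_vv_norm_int hp he hη P hP a ha) (dvd_vv_norm_int hp he hη P hP b hb)

end S1

section S2

/-- `z` is a quotient of two natural numbers prime to `m` and congruent modulo `m` -/
def OneMod (m : ℕ) (z : ℚ) : Prop :=
  ∃ a b : ℕ, 0 < a ∧ 0 < b ∧ a.Coprime m ∧ b.Coprime m ∧ (a : ZMod m) = b ∧ z = a / b

lemma OneMod.one (m : ℕ) : OneMod m 1 := ⟨1, 1, by norm_num, by norm_num, by simp, by simp, rfl,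
  by norm_num⟩

lemma OneMod.mul {m : ℕ} {x y : ℚ} (hx : OneMod m x) (hy : OneMod m y) : OneMod m (x * y) := by
  obtain ⟨a, b, ha0, hb0, ha, hb, hab, rfl⟩ := hx
  obtain ⟨c, d, hc0, hd0, hc, hd, hcd, rfl⟩ := hy
  refine ⟨a * c, b * d, by positivity, by positivity, ha.mul_left hc, hb.mul_left hd, ?_, ?_⟩
  · push_cast
    rw [hab, hcd]
  · push_cast
    rw [div_mul_div_comm]

lemma OneMod.inv {m : ℕ} {x : ℚ} (hx : OneMod m x) : OneMod m x⁻¹ := by
  obtain ⟨a, b, ha0, hb0, ha, hb, hab, rfl⟩ := hx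
  exact ⟨b, a, hb0, ha0, hb, ha, hab.symm, by rw [inv_div]⟩

lemma OneMod.pow {m : ℕ} {x : ℚ} (hx : OneMod m x) (n : ℕ) : OneMod m (x ^ n) := by
  induction n with
  | zero => rw [pow_zero]; exact OneMod.one m
  | succ n ih => rw [pow_succ]; exact ih.mul hx

lemma OneMod.zpow {m : ℕ} {x : ℚ} (hx : OneMod m x) (n : ℤ) : OneMod m (x ^ n) := by
  rcases n with n | n
  · rw [Int.ofNat_eq_natCast, zpow_natCast]
    exact hx.pow n
  · rw [zpow_negSucc]
    exact (hx.pow _).inv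

variable {K : Type*} [Field K] [NumberField K]

lemma ff_pow_one {p e : ℕ} (P : HeightOneSpectrum (𝓞 K)) :
    ((Ideal.absNorm P.asIdeal : ℕ) : ZMod (p ^ e)) ^ (ff (p ^ e) P) = 1 :=
  pow_orderOf_eq_one _

lemma absNorm_pos (P : HeightOneSpectrum (𝓞 K)) : 0 < Ideal.absNorm P.asIdeal :=
  Nat.pos_of_ne_zero fun h => P.ne_bot (Ideal.absNorm_eq_zero_iff.1 h)

lemma absNorm_coprime {p e : ℕ} (hp : p.Prime) (P : HeightOneSpectrum (𝓞 K))
    (hP : (p : 𝓞 K) ∉ P.asIdeal) : (Ideal.absNorm P.asIdeal).Coprime (p ^ e) := by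
  have : P.asIdeal.IsMaximal := P.isMaximal
  have h := not_dvd_absNorm hp P.asIdeal P.ne_bot hP
  exact (((Nat.Prime.coprime_iff_not_dvd hp).2 h).pow_left e).symm

lemma oneMod_term {p e : ℕ} (hp : p.Prime) (P : HeightOneSpectrum (𝓞 K))
    (hP : (p : 𝓞 K) ∉ P.asIdeal) {k : ℤ} (hk : ((ff (p ^ e) P : ℕ) : ℤ) ∣ k) :
    OneMod (p ^ e) ((Ideal.absNorm P.asIdeal : ℚ) ^ k) := by
  obtain ⟨c, rfl⟩ := hk
  rw [zpow_mul, zpow_natCast]
  apply OneMod.zpow
  refine ⟨Ideal.absNorm P.asIdeal ^ ff (p ^ e) P, 1, Nat.pow_pos (absNorm_pos P), by norm_num,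
    (absNorm_coprime hp P hP).pow_left _, by simp, ?_, by push_cast; rw [div_one]⟩
  rw [Nat.cast_pow, ff_pow_one, Nat.cast_one]

/-- a `p`-unit with all valuations divisible has norm `± 1` modulo `p ^ e` -/
theorem oneMod_norm {p e : ℕ} (hp : p.Prime) {x : K} (hx : x ≠ 0)
    (h1 : ∀ P : HeightOneSpectrum (𝓞 K), (p : 𝓞 K) ∈ P.asIdeal → vv P x = 0)
    (h2 : ∀ P : HeightOneSpectrum (𝓞 K), (p : 𝓞 K) ∉ P.asIdeal →
      ((ff (p ^ e) P : ℕ) : ℤ) ∣ vv P x) :
    OneMod (p ^ e) |Algebra.norm ℚ x| := by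
  classical
  have hI : FractionalIdeal.spanSingleton (𝓞 K)⁰ x ≠ 0 :=
    FractionalIdeal.spanSingleton_ne_zero_iff.2 hx
  have h3 := FractionalIdeal.absNorm_span_singleton (R := 𝓞 K) x
  rw [← h3, ← FractionalIdeal.finprod_heightOneSpectrum_factorization' K hI]
  refine finprod_induction (fun I : FractionalIdeal (𝓞 K)⁰ K => OneMod (p ^ e)
    (FractionalIdeal.absNorm I)) ?_ ?_ ?_
  · rw [map_one]
    exact OneMod.one _
  · intro I J hI hJ
    rw [map_mul]
    exact hI.mul hJ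
  · intro P
    rw [map_zpow₀, FractionalIdeal.coeIdeal_absNorm, ← vv_eq_count P hx]
    by_cases hP : (p : 𝓞 K) ∈ P.asIdeal
    · rw [h1 P hP, zpow_zero]
      exact OneMod.one _
    · exact oneMod_term hp P hP (h2 P hP)

end S2

section C

/-- the norm of `B - η` -/
theorem norm_sub_root {K L : Type*} [Field K] [Field L] [Algebra K L] {n : ℕ} [NeZero n]
    [IsCyclotomicExtension {n} K L] {η : L} (hη : IsPrimitiveRoot η n)
    (hirr : Irreducible (cyclotomic n K)) (B : K) :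
    Algebra.norm K (algebraMap K L B - η) = (cyclotomic n K).eval B := by
  have hn := IsCyclotomicExtension.neZero' n K L
  rw [Algebra.norm_eq_matrix_det (hη.powerBasis K).basis, map_sub]
  have h1 := charpoly_leftMulMatrix (hη.powerBasis K)
  rw [IsPrimitiveRoot.powerBasis_gen, ← hη.minpoly_eq_cyclotomic_of_irreducible hirr] at h1
  rw [← h1, Matrix.eval_charpoly]
  rw [AlgHom.commutes]
  rfl

/-- irreducibility of cyclotomic polynomials over cyclotomic fields of coprime conductor -/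
theorem cyclotomic_irreducible_coprime {K : Type*} [Field K] [NumberField K] {N n : ℕ} [NeZero N]
    [NeZero n] [IsCyclotomicExtension {N} ℚ K] (hNn : N.Coprime n) :
    Irreducible (cyclotomic n K) := by
  let L := CyclotomicField n K
  obtain ⟨ζ, hζ⟩ := IsCyclotomicExtension.exists_isPrimitiveRoot (S := {N}) ℚ K rfl (NeZero.ne N)
  obtain ⟨η, hη⟩ := IsCyclotomicExtension.exists_isPrimitiveRoot (S := {n}) K L rfl (NeZero.ne n)
  have hζ' : IsPrimitiveRoot (algebraMap K L ζ) N :=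
    hζ.map_of_injective (algebraMap K L).injective
  have : CharZero L := charZero_of_injective_algebraMap (algebraMap K L).injective
  have : FiniteDimensional K L := IsCyclotomicExtension.finiteDimensional {n} K L
  have : FiniteDimensional ℚ L := FiniteDimensional.trans ℚ K L
  have hξ : IsPrimitiveRoot (algebraMap K L ζ * η) (N * n) := by
    rw [IsPrimitiveRoot.iff_orderOf, (Commute.all _ _).orderOf_mul_eq_mul_orderOf_of_coprime,
      ← hζ'.eq_orderOf, ← hη.eq_orderOf]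
    rw [← hζ'.eq_orderOf, ← hη.eq_orderOf]
    exact hNn
  have hpos : 0 < N * n := Nat.mul_pos (NeZero.pos N) (NeZero.pos n)
  have h1 := minpoly.natDegree_le (A := ℚ) (algebraMap K L ζ * η)
  rw [← cyclotomic_eq_minpoly_rat hξ hpos, natDegree_cyclotomic, Nat.totient_mul hNn,
    ← Module.finrank_mul_finrank ℚ K L,
    IsCyclotomicExtension.finrank (n := N) K (cyclotomic.irreducible_rat (NeZero.pos N))] at h1
  have h2 : n.totient ≤ Module.finrank K L :=
    Nat.le_of_mul_le_mul_left h1 (Nat.totient_pos.2 (NeZero.pos N))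
  have h3 : Module.finrank K L = (minpoly K η).natDegree := by
    rw [(hη.powerBasis K).finrank, ← (hη.powerBasis K).natDegree_minpoly,
      IsPrimitiveRoot.powerBasis_gen]
  have hn := IsCyclotomicExtension.neZero' n K L
  have h4 : minpoly K η ∣ cyclotomic n K := by
    apply minpoly.dvd
    rw [aeval_def, eval₂_eq_eval_map, map_cyclotomic]
    exact hη.isRoot_cyclotomic (NeZero.pos n)
  have hint : IsIntegral K η := Algebra.IsIntegral.isIntegral η
  have h5 : cyclotomic n K = minpoly K η :=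
    eq_of_monic_of_dvd_of_natDegree_le (minpoly.monic hint) (cyclotomic.monic n K) h4
      (by rw [natDegree_cyclotomic, ← h3]; exact h2)
  rw [h5]
  exact minpoly.irreducible hint

end C

end Vale.Agent.P027.R2.H955
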