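import Vale.Agent.P027.R2.H955.NormPadic
import Vale.Agent.P027.R2.H18.Places

set_option linter.all false

/-!
The places of a number field not above `p` as a family of discrete valuations in the sense of
`Places`.
-/

namespace Vale.Agent.P027.R2.H955

open IsDedekindDomain NumberField Vale.Agent.P027.TD

variable {K : Type} [Field K] [NumberField K]

/-- residue characteristic -/
noncomputable def rchar (P : HeightOneSpectrum (𝓞 K)) : ℕ := ringChar (𝓞 K ⧸ P.asIdeal)

lemma rchar_dvd (P : HeightOneSpectrum (𝓞 K)) (m : ℕ) :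
    rchar P ∣ m ↔ (m : 𝓞 K) ∈ P.asIdeal := by
  unfold rchar
  rw [← ringChar.spec, ← Ideal.Quotient.eq_zero_iff_mem, map_natCast]

lemma rchar_facts (P : HeightOneSpectrum (𝓞 K)) :
    (rchar P).Prime ∧ ∃ f : ℕ, 1 ≤ f ∧ Ideal.absNorm P.asIdeal = rchar P ^ f := by
  have : P.asIdeal.IsMaximal := P.isMaximal
  let := Ideal.Quotient.field P.asIdeal
  have : Finite (𝓞 K ⧸ P.asIdeal) := Ideal.finiteQuotientOfFreeOfNeBot P.asIdeal P.ne_bot
  have := Fintype.ofFinite (𝓞 K ⧸ P.asIdeal)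
  have h1 : Ideal.absNorm P.asIdeal = Fintype.card (𝓞 K ⧸ P.asIdeal) := by
    rw [Ideal.absNorm_apply, Submodule.cardQuot_apply, Nat.card_eq_fintype_card]
  have hc : CharP (𝓞 K ⧸ P.asIdeal) (rchar P) := ringChar.charP _
  obtain ⟨n, hc1, hc2⟩ := FiniteField.card (𝓞 K ⧸ P.asIdeal) (rchar P)
  exact ⟨hc1, n, n.pos, by rw [h1, hc2]⟩

lemma natCast_coe (m : ℕ) : ((m : 𝓞 K) : K) = (m : K) := by simp

lemma vv_nat_nonneg (P : HeightOneSpectrum (𝓞 K)) (m : ℕ) : 0 ≤ vv P (m : K) := by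
  rw [← natCast_coe]
  exact vv_int_nonneg P _

lemma vv_nat_pos (P : HeightOneSpectrum (𝓞 K)) {m : ℕ} (hm : m ≠ 0) :
    0 < vv P (m : K) ↔ rchar P ∣ m := by
  rw [← natCast_coe, vv_int_pos_iff P (by exact_mod_cast hm), rchar_dvd]

/-- the family of places not above `p` -/
noncomputable def placesNF (K : Type) [Field K] [NumberField K] (p : ℕ) : Places K where
  I := {P : HeightOneSpectrum (𝓞 K) // (p : 𝓞 K) ∉ P.asIdeal}
  v := fun P x => vv P.1 x
  r := fun P => rchar P.1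
  v_mul := fun P x y hx hy => vv_mul P.1 hx hy
  v_add := fun P x y hx hy hxy => vv_add P.1 hx hy hxy
  r_prime := fun P => (rchar_facts P.1).1
  v_nat_nonneg := fun P m _ => vv_nat_nonneg P.1 m
  v_nat := fun P m hm => vv_nat_pos P.1 hm

lemma placesNF_r_ne (p : ℕ) (i : (placesNF K p).I) : (placesNF K p).r i ≠ p := by
  intro h
  have h1 : rchar i.1 ∣ p := by
    have : rchar i.1 = p := h
    rw [this]
  exact i.2 ((rchar_dvd i.1 p).1 h1)

/-- the order of a unit modulo a place divides something prime to the residue characteristic -/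
lemma placesNF_order (p : ℕ) (i : (placesNF K p).I) {A : K} (hA : A ≠ 0)
    (hv : (placesNF K p).v i A = 0) :
    ∃ m, 1 ≤ m ∧ ¬ (placesNF K p).r i ∣ m ∧ (placesNF K p).Pos i (A ^ m - 1) := by
  obtain ⟨P, hP⟩ := i
  change vv P A = 0 at hv
  change ∃ m, 1 ≤ m ∧ ¬ rchar P ∣ m ∧ (A ^ m - 1 = 0 ∨ 0 < vv P (A ^ m - 1))
  have hPm : P.asIdeal.IsMaximal := P.isMaximal
  let := Ideal.Quotient.field P.asIdeal
  have : Finite (𝓞 K ⧸ P.asIdeal) := Ideal.finiteQuotientOfFreeOfNeBot P.asIdeal P.ne_bot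
  have := Fintype.ofFinite (𝓞 K ⧸ P.asIdeal)
  obtain ⟨hr, f, hf, hN⟩ := rchar_facts P
  have h1 : Ideal.absNorm P.asIdeal = Fintype.card (𝓞 K ⧸ P.asIdeal) := by
    rw [Ideal.absNorm_apply, Submodule.cardQuot_apply, Nat.card_eq_fintype_card]
  have hrf : 2 ≤ rchar P ^ f := by
    calc 2 ≤ rchar P := hr.two_le
      _ = rchar P ^ 1 := (pow_one _).symm
      _ ≤ rchar P ^ f := Nat.pow_le_pow_right hr.pos hf
  refine ⟨rchar P ^ f - 1, by omega, ?_, ?_⟩
  · intro h
    have h2 : rchar P ∣ rchar P ^ f := dvd_pow_self _ (by omega)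
    have h3 : rchar P ∣ rchar P ^ f - (rchar P ^ f - 1) := Nat.dvd_sub h2 h
    have h4 : rchar P ^ f - (rchar P ^ f - 1) = 1 := by omega
    rw [h4] at h3
    exact hr.one_lt.ne' (Nat.dvd_one.1 h3)
  · obtain ⟨n, d, hnd⟩ := P.exists_primeCompl_mul_eq_of_integer A ((vv_nonneg_iff P A).1 hv.ge)
    have hd : (d : 𝓞 K) ∉ P.asIdeal := d.2
    have hd0 : (d : 𝓞 K) ≠ 0 := by
      intro h0
      apply hd
      rw [h0]
      exact P.asIdeal.zero_mem
    have hd0' : ((d : 𝓞 K) : K) ≠ 0 := by simpa using hd0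
    have hnd' : A * ((d : 𝓞 K) : K) = (n : K) := hnd
    have hn0 : n ≠ 0 := by
      rintro rfl
      have : A * ((d : 𝓞 K) : K) = 0 := by rw [hnd']; simp
      exact (mul_ne_zero hA hd0') this
    have hvd : vv P ((d : 𝓞 K) : K) = 0 := by
      have h2 := vv_int_nonneg P (d : 𝓞 K)
      have h3 := (vv_int_pos_iff P hd0).not.2 hd
      omega
    have hn : n ∉ P.asIdeal := by
      rw [← vv_int_pos_iff P hn0, ← hnd', vv_mul P hA hd0', hvd, hv]
      omega
    set m := rchar P ^ f - 1 with hm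
    have hcard : Fintype.card (𝓞 K ⧸ P.asIdeal) - 1 = m := by
      rw [← h1, hN]
    have hq : ∀ a : 𝓞 K, a ∉ P.asIdeal → Ideal.Quotient.mk P.asIdeal (a ^ m) = 1 := by
      intro a ha
      rw [map_pow, ← hcard]
      apply FiniteField.pow_card_sub_one_eq_one
      rwa [Ne, Ideal.Quotient.eq_zero_iff_mem]
    have hmem : n ^ m - (d : 𝓞 K) ^ m ∈ P.asIdeal := by
      rw [← Ideal.Quotient.eq_zero_iff_mem, map_sub, hq n hn, hq d hd, sub_self]
    by_cases hz : A ^ m - 1 = 0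
    · exact Or.inl hz
    · right
      have e : A ^ m - 1 = algebraMap (𝓞 K) K (n ^ m - (d : 𝓞 K) ^ m) /
          algebraMap (𝓞 K) K (d : 𝓞 K) ^ m := by
        rw [map_sub, map_pow, map_pow, ← hnd, mul_pow]
        have : algebraMap (𝓞 K) K (d : 𝓞 K) ^ m ≠ 0 := pow_ne_zero _ hd0'
        rw [eq_div_iff this]
        ring
      have hne : n ^ m - (d : 𝓞 K) ^ m ≠ 0 := by
        intro h0
        apply hz
        rw [e, h0]
        simp
      have hne' : algebraMap (𝓞 K) K (n ^ m - (d : 𝓞 K) ^ m) ≠ 0 :=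
        (map_ne_zero_iff _ (FaithfulSMul.algebraMap_injective (𝓞 K) K)).2 hne
      have hpos := (vv_int_pos_iff P hne).2 hmem
      rw [e, vv_div P hne' (pow_ne_zero _ hd0'), vv_pow]
      have hvd' : vv P (algebraMap (𝓞 K) K (d : 𝓞 K)) = 0 := hvd
      rw [hvd', mul_zero, sub_zero]
      exact hpos

/-- at most `[K : ℚ]` places above each prime -/
lemma card_places (q : ℕ) (s : Finset (HeightOneSpectrum (𝓞 K)))
    (hs : ∀ P ∈ s, rchar P = q) : s.card ≤ Module.finrank ℚ K := by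
  classical
  rcases s.eq_empty_or_nonempty with h0 | ⟨P0, hP0⟩
  · rw [h0]; simp
  have hq : q.Prime := by
    rw [← hs P0 hP0]
    exact (rchar_facts P0).1
  have hinj : Function.Injective (fun P : HeightOneSpectrum (𝓞 K) => P.asIdeal) :=
    fun P Q h => HeightOneSpectrum.ext h
  have h1 : ∏ I ∈ s.image (fun P => P.asIdeal), I ∣ Ideal.span {(q : 𝓞 K)} := by
    apply Finset.prod_primes_dvd
    · intro I hI
      obtain ⟨P, hP, rfl⟩ := Finset.mem_image.1 hI
      exact P.prime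
    · intro I hI
      obtain ⟨P, hP, rfl⟩ := Finset.mem_image.1 hI
      rw [Ideal.dvd_span_singleton, ← rchar_dvd, hs P hP]
  rw [Finset.prod_image fun P _ Q _ h => hinj h] at h1
  have h2 := map_dvd Ideal.absNorm h1
  rw [map_prod, Ideal.absNorm_span_singleton] at h2
  have h3 : (Algebra.norm ℤ (q : 𝓞 K)).natAbs = q ^ Module.finrank ℚ K := by
    have h4 : (q : 𝓞 K) = algebraMap ℤ (𝓞 K) q := by simp
    rw [h4, Algebra.norm_algebraMap, NumberField.RingOfIntegers.rank K, Int.natAbs_pow,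
      Int.natAbs_natCast]
  rw [h3] at h2
  have h5 : q ^ s.card ≤ ∏ P ∈ s, Ideal.absNorm P.asIdeal := by
    rw [← Finset.prod_const]
    apply Finset.prod_le_prod'
    intro P hP
    obtain ⟨-, f, hf, hN⟩ := rchar_facts P
    rw [hN, hs P hP]
    calc q = q ^ 1 := (pow_one _).symm
      _ ≤ q ^ f := Nat.pow_le_pow_right hq.pos hf
  have h6 := h5.trans (Nat.le_of_dvd (Nat.pow_pos hq.pos) h2)
  exact (Nat.pow_le_pow_iff_right hq.one_lt).1 h6

lemma placesNF_card (p : ℕ) (q : ℕ) (s : Finset (placesNF K p).I)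
    (hs : ∀ i ∈ s, (placesNF K p).r i = q) : s.card ≤ Module.finrank ℚ K := by
  have h1 := card_places (K := K) q
    (Finset.map (Function.Embedding.subtype fun P : HeightOneSpectrum (𝓞 K) =>
      (p : 𝓞 K) ∉ P.asIdeal) s)
    (by
      intro P hP
      obtain ⟨i, hi, rfl⟩ := Finset.mem_map.1 hP
      exact hs i hi)
  have h2 := Finset.card_map (s := s) (Function.Embedding.subtype fun P : HeightOneSpectrum (𝓞 K) =>
      (p : 𝓞 K) ∉ P.asIdeal)
  exact h2 ▸ h1

end Vale.Agent.P027.R2.H955
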